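import Mathlib.Analysis.InnerProductSpace.Adjoint
import Mathlib.Topology.ContinuousMap.Star

/-!
P092, TEAM P: unital completely positive limits, up to a scalar (letters of helper828).
-/

set_option linter.all false

open scoped InnerProductSpace
open ContinuousLinearMap

namespace Vale.Agent.P092.SP

/-- A weak limit of (non unital) *-homomorphisms of `C(Y)` with total mass `p`: selfadjoint, and
the inequality of Bessel / Kadison. -/
structure UL {Y K : Type*} [TopologicalSpace Y] [NormedAddCommGroup K] [InnerProductSpace ℂ K]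
    [CompleteSpace K] (E : C(Y, ℂ) →ₗ[ℂ] (K →L[ℂ] K)) (p : ℝ) : Prop where
  one : E 1 = (p : ℂ) • (1 : K →L[ℂ] K)
  star : ∀ f, E (star f) = star (E f)
  bes : ∀ (n : ℕ) (v : Fin n → C(Y, ℂ)) (ξ : K),
    ∑ i, ‖E (v i) ξ‖ ^ 2 ≤ (⟪ξ, E (∑ i, Star.star (v i) * v i) ξ⟫_ℂ).re

end Vale.Agent.P092.SP
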