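import Vale.Agent.P092.SN.Defs
import Vale.Agent.P092.H370.Sp4
import Vale.Agent.P092.H796.Conc
import Vale.Agent.P092.H337.NGa
import Vale.Agent.P092.SP.UL

/-!
P092, TEAM P: interface file (architects helper142, helper805). `k` a local field.

* geometry: `Vale.Agent.P092.SP4` (helper370): `S4 k = Sp_4(k)`, points `YY k 3`, lines `LL k`,
  incidence `on`; base `y0`, `l0`, wall elements `B1 w` (fixes `y0`), `B2 w` (fixes `l0`), root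
  groups `Lg, Lg', Sh, Sh'` (upper triangular).
* SOURCE: a group `E`, `ι : S4 k →* E` surjective (`E = Sp_4(k)` or `PSp_4(k)`).
* TARGET: `q : Γ → S4 k`, a homomorphism modulo signs (`PH q`).
-/

set_option linter.all false

open scoped InnerProductSpace ENNReal LinearAlgebra.Projectivization Matrix
open Filter Topology ContinuousLinearMap MeasureTheory TopologicalSpace

namespace Vale.Agent.P092.SP

open Vale.Agent.P092.SD (Ms UC)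
open Vale.Agent.P092.RC (Cm TRN Moore GG PG YY y0)
open Vale.Agent.P092.H790.CTA (ORBG SIZEG)
open Vale.Agent.P092.H232 (Nin)
open Vale.Agent.P092.SP4

/-! ### Wall elements, root groups, base line -/

section base

variable {k : Type} [NontriviallyNormedField k]

/-- `diag(w⁻¹, 1, 1, w)`; it fixes `y0` -/
def B1 (w : kˣ) : S4 k := ⟨b1 w, b1_mem w⟩

/-- `diag(w⁻¹, w⁻¹, w, w)`; it fixes `l0` -/
def B2 (w : kˣ) : S4 k := ⟨b2 w, b2_mem w⟩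

/-- the long root group `1 + s E_03` -/
def Lg (s : k) : S4 k := ⟨lg s, lg_mem s⟩

/-- the long root group `1 + s E_12` -/
def Lg' (s : k) : S4 k := ⟨lg' s, lg'_mem s⟩

/-- the short root group `1 + s (E_01 - E_23)` -/
def Sh (s : k) : S4 k := ⟨sh s, sh_mem s⟩

/-- the short root group `1 + s (E_02 + E_13)` -/
def Sh' (s : k) : S4 k := ⟨sh' s, sh'_mem s⟩

theorem mem_sp01 {x : Fin 4 → k} :
    x ∈ Submodule.span k (Set.range ![(Pi.single 0 1 : Fin 4 → k), Pi.single 1 1]) ↔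
      x 2 = 0 ∧ x 3 = 0 := by
  constructor
  · intro h
    rw [Submodule.mem_span_range_iff_exists_fun] at h
    obtain ⟨c, rfl⟩ := h
    simp [Fin.sum_univ_two]
  · rintro ⟨h2, h3⟩
    rw [Submodule.mem_span_range_iff_exists_fun]
    refine ⟨![x 0, x 1], ?_⟩
    ext i
    fin_cases i <;> simp [Fin.sum_univ_two, h2, h3]

/-- the base line `⟨e_0, e_1⟩` -/
noncomputable def l0 : LL k :=
  ⟨⟨Submodule.span k (Set.range ![(Pi.single 0 1 : Fin 4 → k), Pi.single 1 1]), by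
    rw [finrank_span_eq_card, Fintype.card_fin]
    rw [LinearIndependent.pair_iff]
    intro s t h
    have h0 := congrFun h 0
    have h1 := congrFun h 1
    simp at h0 h1
    exact ⟨h0, h1⟩⟩, by
    intro x hx y hy
    obtain ⟨hx2, hx3⟩ := mem_sp01.1 hx
    obtain ⟨hy2, hy3⟩ := mem_sp01.1 hy
    rw [om_eq, hx2, hx3, hy2, hy3]
    ring⟩

theorem mem_l0 {x : Fin 4 → k} : x ∈ (l0 : LL k).1.1 ↔ x 2 = 0 ∧ x 3 = 0 := mem_sp01

theorem on_y0_l0 : on (y0 : YY k 3) l0 := on_mk _ |>.2 (mem_l0.2 (by simp))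

end base

/-! ### Sizes, near-wall sets, functions -/

section geo

variable {k : Type} [NontriviallyNormedField k]

/-- the maximum of the norms of the entries -/
noncomputable def nm (h : S4 k) : ℝ := SN.nm h.1

/-- the maximum of the norms of the `2 × 2` minors -/
noncomputable def m2 (h : S4 k) : ℝ := H337.NG.m2 h.1.1

/-- near the wall of `b1` (attracting points): `σ₁ σ₂ ≤ R σ₁` -/
def NW1 (R : ℝ) (h : S4 k) : Prop := m2 h ≤ R * nm h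

/-- near the wall of `b2` (attracting lines): `σ₁ ^ 2 ≤ R σ₁ σ₂` -/
def NW2 (R : ℝ) (h : S4 k) : Prop := nm h ^ 2 ≤ R * m2 h

/-- the attracting point of `h` is in `A`, up to an error `1/T` -/
def Att1 (T : ℝ) (A : Set (YY k 3)) (h : S4 k) : Prop := SN.Att T A h.1

/-- the attracting line of `h` is in `A`, up to an error `1/T` -/
def Att2 (T : ℝ) (A : Set (LL k)) (h : S4 k) : Prop :=
  ∃ X ∈ A, ∃ M : Matrix (Fin 4) (Fin 4) k, (∀ v, M *ᵥ v ∈ X.1.1) ∧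
    ∀ i j, ‖h.1.1 i j - M i j‖ ≤ nm h / T

/-- elements of `Γ` near the wall of points whose attracting point is in `A` -/
def NA1 {Γ : Type} (q : Γ → S4 k) (R T : ℝ) (A : Set (YY k 3)) : Set Γ :=
  {γ | NW1 R (q γ) ∧ Att1 T A (q γ)}

/-- elements of `Γ` near the wall of lines whose attracting line is in `A` -/
def NA2 {Γ : Type} (q : Γ → S4 k) (R T : ℝ) (A : Set (LL k)) : Set Γ :=
  {γ | NW2 R (q γ) ∧ Att2 T A (q γ)}

/-- homomorphisms modulo scalars -/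
def PH {Γ : Type} [Group Γ] (q : Γ → S4 k) : Prop := SN.PH fun γ => (q γ).1

/-- uniform discreteness -/
def UD {Γ : Type} (q : Γ → S4 k) : Prop := SN.UD (fun γ => (q γ).1) Set.univ

/-- translation of functions: `act g f = f ∘ g⁻¹` -/
noncomputable def act {Y : Type} [TopologicalSpace Y] [MulAction (S4 k) Y]
    [ContinuousConstSMul (S4 k) Y] (g : S4 k) (f : C(Y, ℂ)) : C(Y, ℂ) :=
  ⟨fun y => f (g⁻¹ • y), f.continuous.comp (continuous_const_smul g⁻¹)⟩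

/-- opposite points -/
def opp1 (x y : YY k 3) : Prop := ∀ l : LL k, on x l → ¬ on y l

/-- opposite lines -/
def opp2 (l l' : LL k) : Prop := ∀ x : YY k 3, on x l → ¬ on x l'

end geo

/-! ### The source group -/

/-- admissible source groups -/
structure Adm {k : Type} [NontriviallyNormedField k] {E : Type} [Group E] [TopologicalSpace E]
    (ι : S4 k →* E) (a : E →* PG k 4) : Prop where
  tg : IsTopologicalGroup E
  cι : Continuous ι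
  sur : Function.Surjective ι
  ca : Continuous a
  comp : ∀ g (x : YY k 3), a (ι g) • x = g • x
  /-- Howe-Moore: unbounded sets -/
  moore : ∀ S : Set (S4 k), (∀ C : ℝ, ∃ g ∈ S, C ≤ nm g) → Moore (ι '' S)

/-! ### One leg -/

section pic

variable {k : Type} [NontriviallyNormedField k] [ProperSpace k] {E Γ K : Type} [Group E]
  [TopologicalSpace E] [Group Γ] [NormedAddCommGroup K] [InnerProductSpace ℂ K] [CompleteSpace K]

/-- the growth lemma for the wall element `b` and the root group `n` -/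
def ORB [MeasurableSpace k] (μ : Measure k) (ι : S4 k →* E) (π : E →* (K →L[ℂ] K))
    (lam : Γ →* (K →L[ℂ] K)) (W : Set (K →L[ℂ] K)) (Ω : K) (b : S4 k) (n : k → S4 k) : Prop :=
  ∃ ρ : ℝ, 0 < ρ ∧ ρ < 1 ∧ ORBG μ (ι b) (fun s => ι (n s)) ρ π lam W Ω

/-- The base record: picture, projections, lattice, growth, sizes, no invariant states. -/
structure PB [MeasurableSpace k] (μ : Measure k) (w : kˣ) (𝒰 : Ultrafilter ℕ) (ι : S4 k →* E)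
    (a : E →* PG k 4) (π : E →* (K →L[ℂ] K)) (lam : Γ →* (K →L[ℂ] K)) (W : Set (K →L[ℂ] K))
    (Ω : K) (m : Set Γ → (K →L[ℂ] K)) (q : Γ → S4 k) : Prop where
  adm : Adm ι a
  hw : ‖(w : k)‖ < 1
  h𝒰 : (𝒰 : Filter ℕ) ≤ atTop
  pic : RC.Pic π lam W Ω
  ms : Ms lam W Ω m
  uc : UC π W Ω m
  ph : PH q
  fin : ∀ C : ℝ, {γ | nm (q γ) ≤ C}.Finite
  ud : UD q
  orb1 : ORB μ ι π lam W Ω (B1 w) Sh'
  orb1' : ORB μ ι π lam W Ω (B1 w) Lg
  orb2 : ORB μ ι π lam W Ω (B2 w) Lg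
  orb2' : ORB μ ι π lam W Ω (B2 w) Sh'
  size1 : SIZEG (ι (B1 w)) π Ω m fun γ => nm (q γ)
  size2 : SIZEG (ι (B2 w)) π Ω m fun γ => nm (q γ)
  /-- proximality of the target (helper673) -/
  prox1 : ∀ (z : YY k 3) (D : Set (YY k 3)), IsCompact D → (∀ y ∈ D, opp1 y z) →
    ∀ U : Set (YY k 3), IsOpen U → U.Nonempty → ∃ γ, ∀ y ∈ D, q γ • y ∈ U
  prox2 : ∀ (z : LL k) (D : Set (LL k)), IsCompact D → (∀ y ∈ D, opp2 y z) →
    ∀ U : Set (LL k), IsOpen U → U.Nonempty → ∃ γ, ∀ y ∈ D, q γ • y ∈ U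
  /-- no `Γ`-invariant state on the functions of points -/
  nis1 : ∀ φ : C(YY k 3, ℂ) →ₗ[ℂ] ℂ, (∀ f, 0 ≤ (φ (star f * f)).re) → φ 1 = 1 →
    (∀ γ, ∀ f f' : C(YY k 3, ℂ), (∀ x, f' (q γ • x) = f x) → φ f' = φ f) → False
  /-- no `Γ`-invariant state on the functions of lines -/
  nis2 : ∀ φ : C(LL k, ℂ) →ₗ[ℂ] ℂ, (∀ f, 0 ≤ (φ (star f * f)).re) → φ 1 = 1 →
    (∀ γ, ∀ f f' : C(LL k, ℂ), (∀ x, f' (q γ • x) = f x) → φ f' = φ f) → False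

variable {X Y : Type} [MulAction (S4 k) X] [TopologicalSpace Y] [CompactSpace Y]
  [MulAction (S4 k) Y] [ContinuousConstSMul (S4 k) Y]

/-- One family of unital completely positive limits (times a mass `p`): source type `X` with wall
element `b` fixing `v0`, target type `Y` with the near-wall sets `NA`. -/
structure UFam (𝒰 : Ultrafilter ℕ) (b : S4 k) (v0 : X) (ι : S4 k →* E) (π : E →* (K →L[ℂ] K))
    (lam : Γ →* (K →L[ℂ] K)) (W : Set (K →L[ℂ] K)) (m : Set Γ → (K →L[ℂ] K)) (q : Γ → S4 k)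
    (NA : ℝ → ℝ → Set Y → Set Γ) (U : X → (C(Y, ℂ) →ₗ[ℂ] (K →L[ℂ] K))) (p : ℝ) : Prop where
  ul : ∀ v, UL (U v) p
  cm : ∀ v f, Cm W (U v f)
  cov : ∀ γ v f, lam γ * U v f * lam γ⁻¹ = U v (act (q γ) f)
  pcov : ∀ g v f, π (ι g) * U v f * π (ι g)⁻¹ = U (g • v) f
  /-- domination by the limits of the cut-offs -/
  dom : ∀ (g : S4 k) (u : C(Y, ℂ)) (A : Set Y), IsOpen A → tsupport u ⊆ A → ∀ ζ : K,
    ∀ ε > 0, ∃ R : ℝ, ∀ T > 0, ∀ᶠ t : ℕ in (𝒰 : Filter ℕ),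
      ‖U (g • v0) u ζ‖ ≤ ‖u‖ * ‖m (NA R T A) (π (ι (g * b ^ t * g⁻¹))⁻¹ ζ)‖ + ε
  /-- two different places agree nowhere -/
  agr : p ≠ 0 → ∀ v v', v ≠ v' → ∀ ξ, (∀ f, U v f ξ = U v' f ξ) → ξ = 0

/-- The same for *-homomorphisms. -/
structure HFam (𝒰 : Ultrafilter ℕ) (b : S4 k) (v0 : X) (ι : S4 k →* E) (π : E →* (K →L[ℂ] K))
    (lam : Γ →* (K →L[ℂ] K)) (W : Set (K →L[ℂ] K)) (m : Set Γ → (K →L[ℂ] K)) (q : Γ → S4 k)
    (NA : ℝ → ℝ → Set Y → Set Γ) (F : X → (C(Y, ℂ) →⋆ₐ[ℂ] (K →L[ℂ] K))) : Prop where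
  cm : ∀ v f, Cm W (F v f)
  cov : ∀ γ v f, lam γ * F v f * lam γ⁻¹ = F v (act (q γ) f)
  pcov : ∀ g v f, π (ι g) * F v f * π (ι g)⁻¹ = F (g • v) f
  dom : ∀ (g : S4 k) (u : C(Y, ℂ)) (A : Set Y), IsOpen A → tsupport u ⊆ A → ∀ ζ : K,
    ∀ ε > 0, ∃ R : ℝ, ∀ T > 0, ∀ᶠ t : ℕ in (𝒰 : Filter ℕ),
      ‖F (g • v0) u ζ‖ ≤ ‖u‖ * ‖m (NA R T A) (π (ι (g * b ^ t * g⁻¹))⁻¹ ζ)‖ + ε
  agr : ∀ v v', v ≠ v' → ∀ ξ, (∀ f, F v f ξ = F v' f ξ) → ξ = 0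

/-- One leg: everything the analysis delivers. `Uij` : source type `i`, target type `j`
(`1` = points, `2` = lines). -/
structure LegP [MeasurableSpace k] (μ : Measure k) (w : kˣ) (𝒰 : Ultrafilter ℕ) (ι : S4 k →* E)
    (a : E →* PG k 4) (π : E →* (K →L[ℂ] K)) (lam : Γ →* (K →L[ℂ] K)) (W : Set (K →L[ℂ] K))
    (Ω : K) (m : Set Γ → (K →L[ℂ] K)) (q : Γ → S4 k)
    (U11 : YY k 3 → (C(YY k 3, ℂ) →ₗ[ℂ] (K →L[ℂ] K))) (p11 : ℝ)
    (U12 : YY k 3 → (C(LL k, ℂ) →ₗ[ℂ] (K →L[ℂ] K))) (p12 : ℝ)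
    (U21 : LL k → (C(YY k 3, ℂ) →ₗ[ℂ] (K →L[ℂ] K))) (p21 : ℝ)
    (U22 : LL k → (C(LL k, ℂ) →ₗ[ℂ] (K →L[ℂ] K))) (p22 : ℝ) : Prop where
  base : PB μ w 𝒰 ι a π lam W Ω m q
  u11 : UFam 𝒰 (B1 w) (y0 : YY k 3) ι π lam W m q (NA1 q) U11 p11
  u12 : UFam 𝒰 (B1 w) (y0 : YY k 3) ι π lam W m q (NA2 q) U12 p12
  u21 : UFam 𝒰 (B2 w) (l0 : LL k) ι π lam W m q (NA1 q) U21 p21
  u22 : UFam 𝒰 (B2 w) (l0 : LL k) ι π lam W m q (NA2 q) U22 p22
  s1 : p11 + p12 = 1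
  s2 : p21 + p22 = 1
  /-- (I1) for an incident pair, straight types -/
  i11 : ∀ c l, on c l → ∀ f g, Nin on f g → U11 c f * U22 l g = 0
  /-- (I1) for an incident pair, flipped types -/
  i12 : ∀ c l, on c l → ∀ f g, Nin on f g → U21 l f * U12 c g = 0

/-- One leg after purity and (0): *-homomorphisms `Ec c : C(Y₁)`, `F l : C(Y₂)`; the calculi of an
incident pair commute and are exactly incident for `IT`. Straight: `Y₁` = points, `Y₂` = lines,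
`IT = on`; flipped: `Y₁` = lines, `Y₂` = points, `IT = flip on`. -/
structure LegC [MeasurableSpace k] {Y₁ Y₂ : Type} [TopologicalSpace Y₁] [CompactSpace Y₁]
    [MulAction (S4 k) Y₁] [ContinuousConstSMul (S4 k) Y₁] [TopologicalSpace Y₂] [CompactSpace Y₂]
    [MulAction (S4 k) Y₂] [ContinuousConstSMul (S4 k) Y₂] (IT : Y₁ → Y₂ → Prop)
    (μ : Measure k) (w : kˣ) (𝒰 : Ultrafilter ℕ) (ι : S4 k →* E)
    (a : E →* PG k 4) (π : E →* (K →L[ℂ] K)) (lam : Γ →* (K →L[ℂ] K)) (W : Set (K →L[ℂ] K))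
    (Ω : K) (m : Set Γ → (K →L[ℂ] K)) (q : Γ → S4 k) (NA₁ : ℝ → ℝ → Set Y₁ → Set Γ)
    (NA₂ : ℝ → ℝ → Set Y₂ → Set Γ) (Ec : YY k 3 → (C(Y₁, ℂ) →⋆ₐ[ℂ] (K →L[ℂ] K)))
    (F : LL k → (C(Y₂, ℂ) →⋆ₐ[ℂ] (K →L[ℂ] K))) : Prop where
  base : PB μ w 𝒰 ι a π lam W Ω m q
  e : HFam 𝒰 (B1 w) (y0 : YY k 3) ι π lam W m q NA₁ Ec
  f : HFam 𝒰 (B2 w) (l0 : LL k) ι π lam W m q NA₂ F
  pl : ∀ c l, on c l → H796.PL IT (Ec c) (F l)

/-- The first key: a point `c` and a line `l` which are not incident. -/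
def Key1 {Y₁ Y₂ : Type} [TopologicalSpace Y₁] [TopologicalSpace Y₂] (IT : Y₁ → Y₂ → Prop)
    (Ec : YY k 3 → (C(Y₁, ℂ) →⋆ₐ[ℂ] (K →L[ℂ] K))) (F : LL k → (C(Y₂, ℂ) →⋆ₐ[ℂ] (K →L[ℂ] K))) :
    Prop :=
  ∀ c l, ¬ on c l → ∀ (u : C(Y₁, ℂ)) (g : C(Y₂, ℂ)) (h : C(Y₁, ℂ)), H796.Opp IT u h →
    Ec c u * F l g * Ec c h = 0

/-- The second key. -/
def Key2 {Y₁ Y₂ : Type} [TopologicalSpace Y₁] [TopologicalSpace Y₂] (IT : Y₁ → Y₂ → Prop)
    (Ec : YY k 3 → (C(Y₁, ℂ) →⋆ₐ[ℂ] (K →L[ℂ] K))) (F : LL k → (C(Y₂, ℂ) →⋆ₐ[ℂ] (K →L[ℂ] K))) :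
    Prop :=
  ∀ c l, ¬ on c l → ∀ (u : C(Y₂, ℂ)) (g : C(Y₁, ℂ)) (h : C(Y₂, ℂ)), H796.Opp (flip IT) u h →
    F l u * Ec c g * F l h = 0

/-- all calculi commute -/
structure Com {Y₁ Y₂ : Type} [TopologicalSpace Y₁] [TopologicalSpace Y₂]
    (Ec : YY k 3 → (C(Y₁, ℂ) →⋆ₐ[ℂ] (K →L[ℂ] K))) (F : LL k → (C(Y₂, ℂ) →⋆ₐ[ℂ] (K →L[ℂ] K))) :
    Prop where
  ee : ∀ c c' f g, Commute (Ec c f) (Ec c' g)
  ff : ∀ l l' f g, Commute (F l f) (F l' g)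
  ef : ∀ c l f g, Commute (Ec c f) (F l g)

/-- The output of the blocks: a straight leg, all calculi commute. -/
structure LegComm [MeasurableSpace k] (μ : Measure k) (w : kˣ) (𝒰 : Ultrafilter ℕ)
    (ι : S4 k →* E) (a : E →* PG k 4) (π : E →* (K →L[ℂ] K)) (lam : Γ →* (K →L[ℂ] K))
    (W : Set (K →L[ℂ] K)) (Ω : K) (m : Set Γ → (K →L[ℂ] K)) (q : Γ → S4 k)
    (Ec : YY k 3 → (C(YY k 3, ℂ) →⋆ₐ[ℂ] (K →L[ℂ] K)))
    (F : LL k → (C(LL k, ℂ) →⋆ₐ[ℂ] (K →L[ℂ] K))) : Prop where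
  leg : LegC on μ w 𝒰 ι a π lam W Ω m q (NA1 q) (NA2 q) Ec F
  com : Com Ec F

end pic

end Vale.Agent.P092.SP
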