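import Vale.Agent.P092.H831.Quad
import Vale.Agent.P092.H677.PCon
import Vale.Agent.P092.H796.Conc

/-!
P092, TEAM P (helper142): generalised quadrangles. From the two keys it follows that all calculi of
a leg commute (glue of H677/H796 and H831; no group).
-/

set_option linter.all false

namespace Vale.Agent.P092.SP

open Vale.Agent.P092.H232 (Nin)
open Vale.Agent.P092.H796 (PL Opp)
open Vale.Agent.P092.H677 (Syn)

/-- A generalised quadrangle. -/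
structure GQ {P L : Type*} (In : P → L → Prop) : Prop where
  uniq : ∀ x x' y y', x ≠ x' → In x y → In x' y → In x y' → In x' y' → y = y'
  tri : ∀ x x' z n m m', ¬ In z n → In x m → In z m → In x' m' → In z m' → In x n →
    In x' n → x = x'
  foot : ∀ x l, ¬ In x l → ∃ y m, In x m ∧ In y m ∧ In y l
  pt2 : ∀ l, ∃ x x', x ≠ x' ∧ In x l ∧ In x' l
  ln2 : ∀ x, ∃ l l', l ≠ l' ∧ In x l ∧ In x l'

namespace GQ

variable {P L : Type*} {In : P → L → Prop}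

theorem uniq' (S : GQ In) {x x' : P} {y y' : L} (h : y ≠ y') (h1 : In x y) (h2 : In x' y)
    (h3 : In x y') (h4 : In x' y') : x = x' := by
  by_contra hx
  exact h (S.uniq x x' y y' hx h1 h2 h3 h4)

theorem dual (S : GQ In) : GQ (flip In) where
  uniq y y' x x' h h1 h2 h3 h4 := S.uniq' h h1 h3 h2 h4
  tri l l' z n m m' hn h1 h2 h3 h4 h5 h6 := by
    have e : m = m' := S.tri m m' n z l l' hn h1 h5 h3 h6 h2 h4
    subst e
    refine S.uniq m n l l' ?_ h1 h5 h3 h6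
    rintro rfl
    exact hn h2
  foot l x h := by
    obtain ⟨y, m, h1, h2, h3⟩ := S.foot x l h
    exact ⟨m, y, h3, h2, h1⟩
  pt2 := S.ln2
  ln2 := S.pt2

theorem gq (S : GQ In) : ∀ x y z n n' m, x ≠ y → y ≠ z → In x n → In y n → In y n' → In z n' →
    In x m → In z m → n = n' := by
  intro x y z n n' m hxy hyz h1 h2 h3 h4 h5 h6
  by_contra hn
  refine hxy (S.tri x y z n m n' (fun h => hn (S.uniq y z n n' hyz h2 h h3 h4)) h5 h6 h3 h4 h1 h2)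

/-- the configuration of two points which are not collinear -/
theorem config (S : GQ In) {x x' : P} (h : ∀ l, In x l → ¬ In x' l) :
    ∃ (δ γ : P) (ν ν' μ μ' : L), In x ν ∧ In δ ν ∧ In x' ν' ∧ In δ ν' ∧ In x μ ∧ In γ μ ∧
      In x' μ' ∧ In γ μ' ∧ x ≠ δ ∧ x' ≠ δ ∧ x ≠ γ ∧ x' ≠ γ ∧ ν ≠ μ ∧ ν' ≠ μ' := by
  obtain ⟨ν, μ, hνμ, hν, hμ⟩ := S.ln2 x
  obtain ⟨δ, ν', a1, a2, a3⟩ := S.foot x' ν (h ν hν)
  obtain ⟨γ, μ', b1, b2, b3⟩ := S.foot x' μ (h μ hμ)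
  have hxν' : ¬ In x ν' := fun hx => h ν' hx a1
  have n1 : x ≠ δ := by rintro rfl; exact hxν' a2
  have n2 : x' ≠ δ := by rintro rfl; exact h ν hν a3
  have n3 : x ≠ γ := by rintro rfl; exact h μ' b2 b1
  have n4 : x' ≠ γ := by rintro rfl; exact h μ hμ b3
  refine ⟨δ, γ, ν, ν', μ, μ', hν, a3, a1, a2, hμ, b3, b1, b2, n1, n2, n3, n4, hνμ, ?_⟩
  rintro rfl
  have e : δ = γ := S.tri δ γ x ν' ν μ hxν' a3 hν b3 hμ a2 b2
  subst e
  exact hνμ (S.uniq x δ ν μ n1 hν a3 hμ b3)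

end GQ

section com

variable {P L Y₁ Y₂ K : Type*} [TopologicalSpace Y₁] [CompactSpace Y₁] [T2Space Y₁]
  [TopologicalSpace Y₂] [CompactSpace Y₂] [T2Space Y₂]
  [NormedAddCommGroup K] [InnerProductSpace ℂ K] [CompleteSpace K]
  {In : P → L → Prop} {IT : Y₁ → Y₂ → Prop}
  {e : P → (C(Y₁, ℂ) →⋆ₐ[ℂ] (K →L[ℂ] K))} {f : L → (C(Y₂, ℂ) →⋆ₐ[ℂ] (K →L[ℂ] K))}

theorem pl_flip {b : C(Y₁, ℂ) →⋆ₐ[ℂ] (K →L[ℂ] K)} {l : C(Y₂, ℂ) →⋆ₐ[ℂ] (K →L[ℂ] K)}
    (h : PL IT b l) : PL (flip IT) l b where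
  com g u := (h.com u g).symm
  inc g u hn := by
    rw [← (h.com u g).eq]
    exact h.inc u g fun x hx y hy => hn y hy x hx

theorem comm_self (b : C(Y₁, ℂ) →⋆ₐ[ℂ] (K →L[ℂ] K)) (u v : C(Y₁, ℂ)) :
    Commute (b u) (b v) := by
  change b u * b v = b v * b u
  rw [← map_mul, ← map_mul, mul_comm]

/-- concurrent lines commute -/
theorem conc_lines (S : GQ In) (T : GQ IT) (hI : IsClosed {p : Y₁ × Y₂ | IT p.1 p.2})
    (pl : ∀ c l, In c l → PL IT (e c) (f l))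
    (ae : ∀ v v', v ≠ v' → ∀ ξ, (∀ φ, e v φ ξ = e v' φ ξ) → ξ = 0)
    (syn : ∀ c l, In c l → Syn (e c) (f l))
    (k1 : ∀ c l, ¬ In c l → ∀ (u : C(Y₁, ℂ)) (g : C(Y₂, ℂ)) (h : C(Y₁, ℂ)), Opp IT u h →
      e c u * f l g * e c h = 0) {b : P} {l l' : L} (h1 : In b l) (h2 : In b l')
    (g g' : C(Y₂, ℂ)) : Commute (f l' g) (f l g') := by
  by_cases hl : l = l'
  · subst hl
    exact comm_self _ _ _
  obtain ⟨c, hcb, hcl⟩ : ∃ c, c ≠ b ∧ In c l := by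
    obtain ⟨x, x', hx, h3, h4⟩ := S.pt2 l
    by_cases hxb : x = b
    · exact ⟨x', fun h => hx (hxb.trans h.symm), h4⟩
    · exact ⟨x, hxb, h3⟩
  have hcl' : ¬ In c l' := fun h => hl (S.uniq c b l l' hcb hcl h1 h h2)
  refine H677.comm_of_key hI T.gq (e b) (e c) (f l) (f l') (pl b l h1).com (pl c l hcl).com
    (pl b l' h2).com (pl b l h1).inc (pl c l hcl).inc (ae b c (Ne.symm hcb)) (syn b l h1)
    (fun u h huh φ => k1 c l' hcl' u φ h ?_) g g'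
  intro x hx x' hx' z hz hz'
  exact huh x hx x' hx' ⟨z, hz, hz'⟩

/-- collinear points commute -/
theorem col_points (S : GQ In) (T : GQ IT) (hI : IsClosed {p : Y₁ × Y₂ | IT p.1 p.2})
    (pl : ∀ c l, In c l → PL IT (e c) (f l))
    (af : ∀ v v', v ≠ v' → ∀ ξ, (∀ φ, f v φ ξ = f v' φ ξ) → ξ = 0)
    (syn : ∀ c l, In c l → Syn (f l) (e c))
    (k2 : ∀ c l, ¬ In c l → ∀ (u : C(Y₂, ℂ)) (g : C(Y₁, ℂ)) (h : C(Y₂, ℂ)), Opp (flip IT) u h →
      f l u * e c g * f l h = 0) {l : L} {c c' : P} (h1 : In c l) (h2 : In c' l)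
    (g g' : C(Y₁, ℂ)) : Commute (e c' g) (e c g') := by
  have hI' : IsClosed {p : Y₂ × Y₁ | flip IT p.1 p.2} :=
    hI.preimage (f := fun q : Y₂ × Y₁ => (q.2, q.1)) (by fun_prop)
  exact conc_lines (e := f) (f := e) S.dual T.dual hI' (fun l c h => pl_flip (pl c l h)) af
    (fun l c h => syn c l h) (fun l c h u g h' ho => k2 c l h u g h' ho) h1 h2 g g'

/-- all points commute -/
theorem all_points (S : GQ In) (T : GQ IT) (hI : IsClosed {p : Y₁ × Y₂ | IT p.1 p.2})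
    (pl : ∀ c l, In c l → PL IT (e c) (f l))
    (ae : ∀ v v', v ≠ v' → ∀ ξ, (∀ φ, e v φ ξ = e v' φ ξ) → ξ = 0)
    (af : ∀ v v', v ≠ v' → ∀ ξ, (∀ φ, f v φ ξ = f v' φ ξ) → ξ = 0)
    (cp : ∀ l c c', In c l → In c' l → ∀ g g', Commute (e c' g) (e c g'))
    (cl : ∀ c l l', In c l → In c l' → ∀ g g', Commute (f l' g) (f l g'))
    (x x' : P) (g g' : C(Y₁, ℂ)) : Commute (e x g) (e x' g') := by
  by_cases h : ∃ l, In x l ∧ In x' l
  · obtain ⟨l, h1, h2⟩ := h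
    exact cp l x' x h2 h1 g g'
  · obtain ⟨δ, γ, ν, ν', μ, μ', a1, a2, a3, a4, a5, a6, a7, a8, n1, n2, n3, n4, n5, n6⟩ :=
      S.config (x := x) (x' := x') fun l h1 h2 => h ⟨l, h1, h2⟩
    have flg : ∀ c l, In c l → H831.Flg IT (e c) (f l) := fun c l h =>
      ⟨(pl c l h).com, (pl c l h).inc⟩
    have col : ∀ c c' l, In c l → In c' l → c ≠ c' → H831.Col (e c) (e c') :=
      fun c c' l h1 h2 hn => ⟨fun u v => cp l c' c h2 h1 u v, ae c c' hn⟩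
    exact H831.opp_comm_quad hI T.uniq T.tri (e x) (e x') (e δ) (e γ) (f ν) (f ν') (f μ) (f μ')
      (col _ _ ν a1 a2 n1) (col _ _ ν' a3 a4 n2) (col _ _ μ a5 a6 n3) (col _ _ μ' a7 a8 n4)
      (flg _ _ a1) (flg _ _ a2) (flg _ _ a3) (flg _ _ a4) (flg _ _ a5) (flg _ _ a6)
      (flg _ _ a7) (flg _ _ a8) (fun u v => cl δ ν' ν a4 a2 u v) (af ν μ n5) (af ν' μ' n6) g g'

/-- a point and a line commute -/
theorem point_line (S : GQ In) (T : GQ IT) (hI : IsClosed {p : Y₁ × Y₂ | IT p.1 p.2})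
    (pl : ∀ c l, In c l → PL IT (e c) (f l))
    (ae : ∀ v v', v ≠ v' → ∀ ξ, (∀ φ, e v φ ξ = e v' φ ξ) → ξ = 0)
    (ee : ∀ c c' g g', Commute (e c g) (e c' g')) (c : P) (l : L) (g : C(Y₁, ℂ))
    (h : C(Y₂, ℂ)) : Commute (e c g) (f l h) := by
  obtain ⟨x, x', hx, h1, h2⟩ := S.pt2 l
  exact H831.join_comm hI T.uniq (e x) (e x') (f l) (ee x x') (pl x l h1).com (pl x' l h2).com
    (pl x l h1).inc (pl x' l h2).inc (ae x x' hx) (e c g) (fun u => ee c x g u)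
    (fun u => ee c x' g u) h

end com

end Vale.Agent.P092.SP
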