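import Vale.Agent.P092.H370.Sp4b
import Vale.Agent.P092.SP.Defs
import Vale.Agent.P092.SP.Gq

/-!
P092, TEAM P (helper142): the geometry of `Sp_4(k)` is a generalised quadrangle; a leg with both
keys is commutative.
-/

set_option linter.all false

open scoped InnerProductSpace ENNReal LinearAlgebra.Projectivization
open Filter Topology ContinuousLinearMap MeasureTheory TopologicalSpace

namespace Vale.Agent.P092.SP

open Vale.Agent.P092.RC (Cm TRN Moore GG PG YY y0)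
open Vale.Agent.P092.SP4

section geo

variable {k : Type} [NontriviallyNormedField k]

theorem gq_on : GQ (on : YY k 3 → LL k → Prop) where
  uniq x x' y y' h h1 h2 h3 h4 := on_unique h h1 h2 h3 h4
  tri x x' z n m m' hn h1 h2 h3 h4 h5 h6 :=
    foot_unique hn h5 h6 (prp_of_on h2 h1) (prp_of_on h4 h3)
  foot x l h := by
    obtain ⟨y, hy, hp⟩ := exists_foot x l
    have hne : x ≠ y := by rintro rfl; exact h hy
    obtain ⟨m, h1, h2⟩ := exists_ln hne hp
    exact ⟨y, m, h1, h2, hy⟩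
  pt2 l := exists_on_ne' l
  ln2 x := exists_two_ln x

end geo

section com

variable {P L Y₁ Y₂ K : Type*} [TopologicalSpace Y₁] [CompactSpace Y₁] [T2Space Y₁]
  [TopologicalSpace Y₂] [CompactSpace Y₂] [T2Space Y₂]
  [NormedAddCommGroup K] [InnerProductSpace ℂ K] [CompleteSpace K]
  {In : P → L → Prop} {IT : Y₁ → Y₂ → Prop}
  {e : P → (C(Y₁, ℂ) →⋆ₐ[ℂ] (K →L[ℂ] K))} {f : L → (C(Y₂, ℂ) →⋆ₐ[ℂ] (K →L[ℂ] K))}

/-- **the one-leg step**: both keys and the synthesis imply that everything commutes -/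
theorem gq_com (S : GQ In) (T : GQ IT) (hI : IsClosed {p : Y₁ × Y₂ | IT p.1 p.2})
    (pl : ∀ c l, In c l → H796.PL IT (e c) (f l))
    (ae : ∀ v v', v ≠ v' → ∀ ξ, (∀ φ, e v φ ξ = e v' φ ξ) → ξ = 0)
    (af : ∀ v v', v ≠ v' → ∀ ξ, (∀ φ, f v φ ξ = f v' φ ξ) → ξ = 0)
    (syn : ∀ c l, In c l → H677.Syn (e c) (f l)) (syn' : ∀ c l, In c l → H677.Syn (f l) (e c))
    (k1 : ∀ c l, ¬ In c l → ∀ (u : C(Y₁, ℂ)) (g : C(Y₂, ℂ)) (h : C(Y₁, ℂ)), H796.Opp IT u h →
      e c u * f l g * e c h = 0)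
    (k2 : ∀ c l, ¬ In c l → ∀ (u : C(Y₂, ℂ)) (g : C(Y₁, ℂ)) (h : C(Y₂, ℂ)),
      H796.Opp (flip IT) u h → f l u * e c g * f l h = 0) :
    (∀ c c' g g', Commute (e c g) (e c' g')) ∧ (∀ l l' g g', Commute (f l g) (f l' g')) ∧
      ∀ c l g h, Commute (e c g) (f l h) := by
  have cl : ∀ c l l', In c l → In c l' → ∀ g g', Commute (f l' g) (f l g') :=
    fun c l l' h1 h2 g g' => conc_lines S T hI pl ae syn k1 h1 h2 g g'
  have cp : ∀ l c c', In c l → In c' l → ∀ g g', Commute (e c' g) (e c g') :=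
    fun l c c' h1 h2 g g' => col_points S T hI pl af syn' k2 h1 h2 g g'
  have ee := all_points S T hI pl ae af cp cl
  have hI' : IsClosed {p : Y₂ × Y₁ | flip IT p.1 p.2} :=
    hI.preimage (f := fun q : Y₂ × Y₁ => (q.2, q.1)) (by fun_prop)
  have ff := all_points (e := f) (f := e) S.dual T.dual hI' (fun l c h => pl_flip (pl c l h)) af ae
    cl cp
  exact ⟨ee, ff, point_line S T hI pl ae ee⟩

end com

end Vale.Agent.P092.SP
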