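import Vale.Agent.P092.SP.St
import Vale.Agent.P092.SN.Top

/-!
P092, Team P (helper805): the top of the assembly for `Sp_4(k)`; `SN.CoreE E` is the core statement
of the group `E`.
-/

set_option linter.all false

open scoped InnerProductSpace
open ContinuousLinearMap Matrix

namespace Vale.Agent.P092.SP

open Vale.Agent.P092.H160 Vale.Agent.P092.SR Vale.Agent.P092.H515.St
open Vale.Agent.P092.SN (CoreE super_of_coreE)

theorem eq_form {k : Type} [Field k] {G : Subgroup (SpecialLinearGroup (Fin 4) k)}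
    (h : St.IsSp k G) : G = H303.FormGroup (RingHom.id k) (St.J k) := by
  ext g
  have h1 : g.1.map (RingHom.id k) = g.1 := by ext i j; rfl
  rw [h g, H303.mem_formGroup, h1]

/-- `G = Sp_4(k)` as a type. -/
abbrev SpT (k : Type) [Field k] : Type := ↥(H303.FormGroup (RingHom.id k) (St.J k))

theorem finalR_of (h : CoreE (SpT ℝ)) : St.FinalR := by
  intro Γ _ hΓ
  obtain ⟨hicc, G, i, hG, hi, hl⟩ := hΓ
  obtain rfl := eq_form hG
  exact super_of_coreE h hicc i hi hl

theorem final1_of (h : ∀ (k : Type) [NontriviallyNormedField k] [ProperSpace k], LocK k →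
    (2 : k) ≠ 0 → CoreE (SpT k)) : St.Final1 := by
  intro Γ _ hΓ
  obtain ⟨hicc, k, _, G, i, hp, hk, h2, hG, hi, hl⟩ := hΓ
  obtain rfl := eq_form hG
  exact super_of_coreE (h k hk h2) hicc i hi hl

end Vale.Agent.P092.SP
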