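import Vale.Agent.P092.SP.Leg1
import Vale.Agent.P092.H684.Psp6

/-!
P092, Team P (helper805), [P-EX]: the concrete picture over any admissible source group `E` of
`Sp_4(k)`: both legs, from the spectral gap of the two walls.
-/

set_option linter.all false

open scoped InnerProductSpace ENNReal LinearAlgebra.Projectivization
open Filter Topology ContinuousLinearMap MeasureTheory TopologicalSpace

namespace Vale.Agent.P092.SP

open Vale.Agent.P092.SP4
open Vale.Agent.P092.RC (PG YY GG y0)
open Vale.Agent.P092.H933 (LeviGap LocK)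

/-- **[P-GAP]** (helper956, helper71): the spectral gap of the walls of `Sp_4(k)`. -/
def GapStmt (k : Type) [NontriviallyNormedField k] : Prop :=
  ∀ w : kˣ, ‖(w : k)‖ < 1 → LeviGap (B1 w) ∧ LeviGap (B2 w)

/-- **[P-EX], one leg.** -/
theorem halfStmt_of {k : Type} [NontriviallyNormedField k] [ProperSpace k] [MeasurableSpace k]
    [BorelSpace k] {μ : Measure k} [μ.IsAddHaarMeasure] {E : Type} [Group E] [TopologicalSpace E]
    [IsTopologicalGroup E] [LocallyCompactSpace E] [SecondCountableTopology E] [T2Space E]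
    {ι : S4 k →* E} {a : E →* PG k 4} (hk : LocK k) (h : Adm ι a) (hg : GapStmt k) :
    HalfStmt k μ ι a := by
  intro _ _ Γ _ _ _ _ ν _ hν hΓ hicc Λ _ _ hΛ α hα
  obtain ⟨x, hx0, hx1⟩ := NormedField.exists_norm_lt_one k
  have hx : x ≠ 0 := norm_pos_iff.1 hx0
  have hw : ‖((Units.mk0 x hx : kˣ) : k)‖ < 1 := hx1
  have hq : ∀ γ : Γ, ι (Function.surjInv h.sur (γ : E)) = γ := fun γ =>
    Function.surjInv_eq h.sur _
  refine ⟨Units.mk0 x hx, hyperfilter ℕ, _, fun γ => Function.surjInv h.sur (γ : E),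
    leg₁ hν hα hk h hw Nat.hyperfilter_le_atTop hΛ
      (H684.Psp.leviGap_proper ι h.cι h.sur (hg _ hw).1)
      (H684.Psp.leviGap_proper ι h.cι h.sur (hg _ hw).2) hq, inj_lift h hq hicc⟩

/-- **[P-EX].** -/
theorem exStmt_of {k : Type} [NontriviallyNormedField k] [ProperSpace k] [MeasurableSpace k]
    [BorelSpace k] {μ : Measure k} [μ.IsAddHaarMeasure] {E : Type} [Group E] [TopologicalSpace E]
    [IsTopologicalGroup E] [LocallyCompactSpace E] [SecondCountableTopology E] [T2Space E]
    {ι : S4 k →* E} {a : E →* PG k 4} (hk : LocK k) (h : Adm ι a) (hg : GapStmt k) :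
    ExStmt k μ ι a := exStmt_of_half (halfStmt_of hk h hg)

end Vale.Agent.P092.SP
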