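import Vale.Agent.P092.SP.Blocks2
import Vale.Agent.P092.SD.Tw

/-!
P092, TEAM P (helper53): transport of one leg (`SP.LegP`, `SP.LegC`) along a unitary.
-/

set_option linter.all false

open scoped InnerProductSpace ENNReal LinearAlgebra.Projectivization
open Filter Topology ContinuousLinearMap MeasureTheory TopologicalSpace

namespace Vale.Agent.P092.SP.Tw

open Vale.Agent.P092.RC (Cm TRN Moore GG PG YY y0 Tw cj cj_ap norm_cj adjoint_cj cm_cj cj_comm)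
open Vale.Agent.P092.SD (cjH tw_pic tw_ms tw_uc surj_vec cj_surj cj_norm_ap cj_smul_one)
open Vale.Agent.P092.SP4
open Vale.Agent.P092.H790.CTA (ORBG SIZEG)
open Vale.Agent.P092.H232 (Nin)

variable {k : Type} [NontriviallyNormedField k] [ProperSpace k] {K K' : Type}
  [NormedAddCommGroup K] [InnerProductSpace ℂ K] [CompleteSpace K]
  [NormedAddCommGroup K'] [InnerProductSpace ℂ K'] [CompleteSpace K'] {u : K ≃ₗᵢ[ℂ] K'}
  {E Γ : Type} [Group E] [TopologicalSpace E] [Group Γ]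
  {π : E →* (K →L[ℂ] K)} {lam : Γ →* (K →L[ℂ] K)}
  {W : Set (K →L[ℂ] K)} {Ω : K} {π' : E →* (K' →L[ℂ] K')} {lam' : Γ →* (K' →L[ℂ] K')}
  {W' : Set (K' →L[ℂ] K')} {Ω' : K'} {w : kˣ} {q : Γ → S4 k} {𝒰 : Ultrafilter ℕ}
  {m : Set Γ → (K →L[ℂ] K)} {ι : S4 k →* E} {a : E →* PG k 4}

theorem tw_orbg {V : Type} [NormedAddCommGroup V] [MeasurableSpace V] {μ : Measure V} {b : E}
    {n : V → E} {ρ : ℝ} (t : Tw u π lam W Ω π' lam' W' Ω')
    (h : ORBG μ b n ρ π lam W Ω) : ORBG μ b n ρ π' lam' W' Ω' := by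
  intro g δ hδ
  obtain ⟨C, hC⟩ := h g δ hδ
  refine ⟨C, fun N T hT hT1 => ?_⟩
  obtain ⟨T, rfl⟩ := cj_surj u T
  rw [t.W] at hT
  rw [norm_cj] at hT1
  have h1 := hC N T ((cm_cj u).1 hT) hT1
  rw [t.trn]
  refine le_trans (le_of_eq ?_) h1
  refine lintegral_congr fun s => ?_
  rw [t.pi, t.Om, cj_ap, cj_ap]
  congr 1
  exact u.toLinearIsometry.enorm_map _

theorem tw_orb [MeasurableSpace k] {μ : Measure k} {b : S4 k} {n : k → S4 k}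
    (t : Tw u π lam W Ω π' lam' W' Ω') (h : ORB μ ι π lam W Ω b n) :
    ORB μ ι π' lam' W' Ω' b n := by
  obtain ⟨ρ, h1, h2, h3⟩ := h
  exact ⟨ρ, h1, h2, tw_orbg t h3⟩

theorem tw_sizeg {b : E} {sz : Γ → ℝ} (t : Tw u π lam W Ω π' lam' W' Ω')
    (h : SIZEG b π Ω m sz) : SIZEG b π' Ω' (fun S => cj u (m S)) sz := by
  intro g η hη ε hε
  filter_upwards [h g η hη ε hε] with N hN
  rw [t.pi, t.Om, cj_ap, cj_norm_ap]
  exact hN

theorem tw_pb [MeasurableSpace k] {μ : Measure k} (t : Tw u π lam W Ω π' lam' W' Ω')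
    (h : PB μ w 𝒰 ι a π lam W Ω m q) :
    PB μ w 𝒰 ι a π' lam' W' Ω' (fun S => cj u (m S)) q where
  adm := h.adm
  hw := h.hw
  h𝒰 := h.h𝒰
  pic := tw_pic t h.pic
  ms := tw_ms t h.ms
  uc := tw_uc t h.uc
  ph := h.ph
  fin := h.fin
  ud := h.ud
  orb1 := tw_orb t h.orb1
  orb1' := tw_orb t h.orb1'
  orb2 := tw_orb t h.orb2
  orb2' := tw_orb t h.orb2'
  size1 := tw_sizeg t h.size1
  size2 := tw_sizeg t h.size2
  prox1 := h.prox1
  prox2 := h.prox2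
  nis1 := h.nis1
  nis2 := h.nis2

/-- conjugation of a unital completely positive limit -/
noncomputable def cjU {Y : Type} [TopologicalSpace Y] (u : K ≃ₗᵢ[ℂ] K')
    (U : C(Y, ℂ) →ₗ[ℂ] (K →L[ℂ] K)) : C(Y, ℂ) →ₗ[ℂ] (K' →L[ℂ] K') where
  toFun f := cj u (U f)
  map_add' f g := by rw [map_add, map_add]
  map_smul' z f := by rw [map_smul, map_smul, RingHom.id_apply]

theorem cjU_ap {Y : Type} [TopologicalSpace Y] (U : C(Y, ℂ) →ₗ[ℂ] (K →L[ℂ] K)) (f : C(Y, ℂ)) :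
    cjU u U f = cj u (U f) := rfl

/-- conjugation of a calculus -/
noncomputable def cjF {Y : Type} [TopologicalSpace Y] (u : K ≃ₗᵢ[ℂ] K')
    (β : C(Y, ℂ) →⋆ₐ[ℂ] (K →L[ℂ] K)) : C(Y, ℂ) →⋆ₐ[ℂ] (K' →L[ℂ] K') :=
  (cjH u).comp β

theorem cjF_ap {Y : Type} [TopologicalSpace Y] (β : C(Y, ℂ) →⋆ₐ[ℂ] (K →L[ℂ] K)) (f : C(Y, ℂ)) :
    cjF u β f = cj u (β f) := rfl

theorem tw_ul {Y : Type} [TopologicalSpace Y] {U : C(Y, ℂ) →ₗ[ℂ] (K →L[ℂ] K)} {p : ℝ}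
    (h : UL U p) : UL (cjU u U) p where
  one := by rw [cjU_ap, h.one, cj_smul_one]
  star f := by
    rw [cjU_ap, cjU_ap, h.star, star_eq_adjoint, star_eq_adjoint, adjoint_cj]
  bes n v ξ := by
    obtain ⟨η, rfl⟩ := surj_vec u ξ
    have h1 := h.bes n v η
    rw [cjU_ap, cj_ap, u.inner_map_map]
    refine le_trans (le_of_eq (Finset.sum_congr rfl fun i _ => ?_)) h1
    rw [cjU_ap, cj_norm_ap]

variable {X Y : Type} [MulAction (S4 k) X] [TopologicalSpace Y] [CompactSpace Y]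
  [MulAction (S4 k) Y] [ContinuousConstSMul (S4 k) Y] {b : S4 k} {v0 : X}
  {NA : ℝ → ℝ → Set Y → Set Γ}

theorem tw_ufam {U : X → (C(Y, ℂ) →ₗ[ℂ] (K →L[ℂ] K))} {p : ℝ}
    (t : Tw u π lam W Ω π' lam' W' Ω') (h : UFam 𝒰 b v0 ι π lam W m q NA U p) :
    UFam 𝒰 b v0 ι π' lam' W' (fun S => cj u (m S)) q NA (fun x => cjU u (U x)) p where
  ul v := tw_ul (h.ul v)
  cm x f := by
    rw [t.W, cjU_ap]
    exact (cm_cj u).2 (h.cm x f)
  cov γ x f := by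
    rw [cjU_ap, cjU_ap, t.lam, t.lam, ← map_mul, ← map_mul, h.cov]
  pcov g x f := by
    rw [cjU_ap, cjU_ap, t.pi, t.pi, ← map_mul, ← map_mul, h.pcov]
  dom g v A hA hv ζ ε hε := by
    obtain ⟨ζ, rfl⟩ := surj_vec u ζ
    obtain ⟨R, hR⟩ := h.dom g v A hA hv ζ ε hε
    refine ⟨R, fun T hT => ?_⟩
    filter_upwards [hR T hT] with N hN
    rw [cjU_ap, t.pi, cj_norm_ap, cj_ap, cj_norm_ap]
    exact hN
  agr hp x y hab ξ hξ := by
    obtain ⟨η, rfl⟩ := surj_vec u ξ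
    rw [h.agr hp x y hab η fun f => ?_, map_zero]
    have h1 := hξ f
    rw [cjU_ap, cjU_ap, cj_ap, cj_ap] at h1
    exact u.injective h1

theorem tw_hfam {F : X → (C(Y, ℂ) →⋆ₐ[ℂ] (K →L[ℂ] K))}
    (t : Tw u π lam W Ω π' lam' W' Ω') (h : HFam 𝒰 b v0 ι π lam W m q NA F) :
    HFam 𝒰 b v0 ι π' lam' W' (fun S => cj u (m S)) q NA (fun x => cjF u (F x)) where
  cm x f := by
    rw [t.W, cjF_ap]
    exact (cm_cj u).2 (h.cm x f)
  cov γ x f := by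
    rw [cjF_ap, cjF_ap, t.lam, t.lam, ← map_mul, ← map_mul, h.cov]
  pcov g x f := by
    rw [cjF_ap, cjF_ap, t.pi, t.pi, ← map_mul, ← map_mul, h.pcov]
  dom g v A hA hv ζ ε hε := by
    obtain ⟨ζ, rfl⟩ := surj_vec u ζ
    obtain ⟨R, hR⟩ := h.dom g v A hA hv ζ ε hε
    refine ⟨R, fun T hT => ?_⟩
    filter_upwards [hR T hT] with N hN
    rw [cjF_ap, t.pi, cj_norm_ap, cj_ap, cj_norm_ap]
    exact hN
  agr x y hab ξ hξ := by
    obtain ⟨η, rfl⟩ := surj_vec u ξ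
    rw [h.agr x y hab η fun f => ?_, map_zero]
    have h1 := hξ f
    rw [cjF_ap, cjF_ap, cj_ap, cj_ap] at h1
    exact u.injective h1

/-- **Transport of a leg.** -/
theorem tw_legP [MeasurableSpace k] {μ : Measure k}
    {U11 : YY k 3 → (C(YY k 3, ℂ) →ₗ[ℂ] (K →L[ℂ] K))} {p11 : ℝ}
    {U12 : YY k 3 → (C(LL k, ℂ) →ₗ[ℂ] (K →L[ℂ] K))} {p12 : ℝ}
    {U21 : LL k → (C(YY k 3, ℂ) →ₗ[ℂ] (K →L[ℂ] K))} {p21 : ℝ}
    {U22 : LL k → (C(LL k, ℂ) →ₗ[ℂ] (K →L[ℂ] K))} {p22 : ℝ}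
    (t : Tw u π lam W Ω π' lam' W' Ω')
    (h : LegP μ w 𝒰 ι a π lam W Ω m q U11 p11 U12 p12 U21 p21 U22 p22) :
    LegP μ w 𝒰 ι a π' lam' W' Ω' (fun S => cj u (m S)) q (fun x => cjU u (U11 x)) p11
      (fun x => cjU u (U12 x)) p12 (fun x => cjU u (U21 x)) p21 (fun x => cjU u (U22 x)) p22 where
  base := tw_pb t h.base
  u11 := tw_ufam t h.u11
  u12 := tw_ufam t h.u12
  u21 := tw_ufam t h.u21
  u22 := tw_ufam t h.u22
  s1 := h.s1
  s2 := h.s2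
  i11 c l hcl f g hfg := by
    rw [cjU_ap, cjU_ap, ← map_mul, h.i11 c l hcl f g hfg, map_zero]
  i12 c l hcl f g hfg := by
    rw [cjU_ap, cjU_ap, ← map_mul, h.i12 c l hcl f g hfg, map_zero]

/-- **Transport of the data of a leg.** -/
theorem tw_hasLeg [MeasurableSpace k] {μ : Measure k} (t : Tw u π lam W Ω π' lam' W' Ω')
    (h : HasLeg μ w 𝒰 ι a π lam W Ω m q) :
    HasLeg μ w 𝒰 ι a π' lam' W' Ω' (fun S => cj u (m S)) q := by
  obtain ⟨U11, p11, U12, p12, U21, p21, U22, p22, h⟩ := h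
  exact ⟨_, p11, _, p12, _, p21, _, p22, tw_legP t h⟩

end Vale.Agent.P092.SP.Tw
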