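import Vale.Agent.P092.SP.Grp
import Vale.Agent.P092.H714.SpM5
import Vale.Agent.P092.H35.Spg
import Vale.Agent.P092.H368.SN.GeoB

/-!
P092, Team P (helper805), [P-EX], source side: an admissible source group `E` of `Sp_4(k)` acts on
points and lines; the powers of the walls tend to infinity; Moore sets; injectivity of the lifts.
-/

set_option linter.all false

open Filter Topology MeasureTheory Matrix
open scoped LinearAlgebra.Projectivization

namespace Vale.Agent.P092.SP

open Vale.Agent.P092.SP4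
open Vale.Agent.P092.RC (Moore PG YY GG y0)
open Vale.Agent.P092.H35 (sp)
open Vale.Agent.P092.H714.S4M (smul_ln smul_pt)

section src

variable {k : Type} [NontriviallyNormedField k] [ProperSpace k] {E : Type} [Group E]
  [TopologicalSpace E] {ι : S4 k →* E} {a : E →* PG k 4}

theorem sp_smul (g : S4 k) (x : YY k 3) : sp k 4 g.1 • x = g • x := rfl

theorem a_ι (h : Adm ι a) (g : S4 k) : a (ι g) = sp k 4 g.1 :=
  H368.SN.pg_faithful fun z => (h.comp g z).trans (sp_smul g z).symm

theorem fibP (h : Adm ι a) {g g' : S4 k} (e : ι g = ι g') (x : YY k 3) : g • x = g' • x := by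
  rw [← h.comp, ← h.comp, e]

theorem fibL (h : Adm ι a) {g g' : S4 k} (e : ι g = ι g') (l : LL k) : g • l = g' • l := by
  have h1 : (g'⁻¹ * g) • l = l := by
    refine smul_ln fun v hv => ?_
    by_cases hv0 : v = 0
    · rw [hv0, mulVec_zero]
      exact l.1.1.zero_mem
    · have h2 : (g'⁻¹ * g) • (Projectivization.mk k v hv0 : YY k 3) =
          Projectivization.mk k v hv0 := by
        rw [mul_smul, fibP h e, inv_smul_smul]
      have h3 := (H714.S4M.pt_of_smul h2 v).1 (by
        rw [Projectivization.submodule_mk]; exact Submodule.mem_span_singleton_self v)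
      rw [Projectivization.submodule_mk, Submodule.mem_span_singleton] at h3
      obtain ⟨c, hc⟩ := h3
      rw [← hc]
      exact l.1.1.smul_mem c hv
  rw [mul_smul, inv_smul_eq_iff] at h1
  exact h1

/-- `E` acts on the points -/
@[reducible] noncomputable def actP (a : E →* PG k 4) : MulAction E (YY k 3) :=
  MulAction.compHom _ a

theorem actP_smul (a : E →* PG k 4) (e : E) (x : YY k 3) :
    letI := actP a
    e • x = a e • x := rfl

theorem actP_ι (h : Adm ι a) (g : S4 k) (x : YY k 3) :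
    letI := actP a
    ι g • x = g • x := h.comp g x

/-- `E` acts on the lines -/
@[reducible] noncomputable def actL (h : Adm ι a) : MulAction E (LL k) where
  smul e l := Function.surjInv h.sur e • l
  one_smul l := by
    change Function.surjInv h.sur 1 • l = l
    rw [fibL h (g' := 1) (by rw [Function.surjInv_eq h.sur, map_one]), one_smul]
  mul_smul e e' l := by
    change Function.surjInv h.sur (e * e') • l =
      Function.surjInv h.sur e • Function.surjInv h.sur e' • l
    rw [← mul_smul]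
    exact fibL h (by rw [map_mul, Function.surjInv_eq h.sur, Function.surjInv_eq h.sur,
      Function.surjInv_eq h.sur]) l

theorem actL_ι (h : Adm ι a) (g : S4 k) (l : LL k) :
    letI := actL h
    ι g • l = g • l := fibL h (Function.surjInv_eq h.sur (ι g)) l

theorem tendsto_ι (h : Adm ι a) {α : Type} {l : Filter α} {b : α → S4 k}
    (hb : Tendsto (fun i => nm (b i)) l atTop) : Tendsto (fun i => ι (b i)) l (cocompact E) := by
  intro s hs
  obtain ⟨K, hK, hKs⟩ := mem_cocompact.1 hs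
  obtain ⟨R, hR⟩ := (hK.image (H35.np_cont.comp h.ca)).bddAbove
  rw [mem_map]
  filter_upwards [hb.eventually_gt_atTop (max 1 R)] with n hn
  refine hKs fun hx => ?_
  have h2 : H35.np (a (ι (b n))) ≤ R := hR ⟨_, hx, rfl⟩
  rw [a_ι h] at h2
  exact absurd (H35.nmx_le_of_np (by norm_num) h2) (not_le.2 hn)

theorem one_lt_inv {w : kˣ} (hw : ‖(w : k)‖ < 1) : 1 < ‖((w⁻¹ : kˣ) : k)‖ := by
  rw [Units.val_inv_eq_inv_val, norm_inv]
  exact one_lt_inv_iff₀.2 ⟨norm_pos_iff.2 w.ne_zero, hw⟩

theorem le_nm (g : S4 k) (i j : Fin 4) : ‖g.1.1 i j‖ ≤ nm g :=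
  (norm_le_pi_norm (fun j => g.1.1 i j) j).trans
    (norm_le_pi_norm (fun i j => g.1.1 i j : Fin 4 → Fin 4 → k) i)

theorem nm_pow {b : S4 k} {w : kˣ} (hw : ‖(w : k)‖ < 1)
    (h : ∀ n, (b ^ n).1.1 0 0 = ((w⁻¹ : kˣ) : k) ^ n) :
    Tendsto (fun n : ℕ => nm (b ^ n)) atTop atTop := by
  refine tendsto_atTop_mono (fun n => ?_) (tendsto_pow_atTop_atTop_of_one_lt (one_lt_inv hw))
  rw [← norm_pow, ← h n]
  exact le_nm _ 0 0

theorem nm_B1 {w : kˣ} (hw : ‖(w : k)‖ < 1) :
    Tendsto (fun n : ℕ => nm ((B1 w) ^ n)) atTop atTop := by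
  refine nm_pow hw fun n => ?_
  change ((b1 w : SpecialLinearGroup (Fin 4) k) ^ n).1 0 0 = _
  rw [b1_pow, Matrix.diagonal_apply_eq]
  rfl

theorem nm_B2 {w : kˣ} (hw : ‖(w : k)‖ < 1) :
    Tendsto (fun n : ℕ => nm ((B2 w) ^ n)) atTop atTop := by
  refine nm_pow hw fun n => ?_
  change ((b2 w : SpecialLinearGroup (Fin 4) k) ^ n).1 0 0 = _
  rw [b2_pow, Matrix.diagonal_apply_eq]
  rfl

theorem coc1 (h : Adm ι a) {w : kˣ} (hw : ‖(w : k)‖ < 1) :
    Tendsto (fun n : ℕ => (ι (B1 w)) ^ n) atTop (cocompact E) := by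
  refine (tendsto_ι h (nm_B1 hw)).congr fun n => ?_
  rw [map_pow]

theorem coc2 (h : Adm ι a) {w : kˣ} (hw : ‖(w : k)‖ < 1) :
    Tendsto (fun n : ℕ => (ι (B2 w)) ^ n) atTop (cocompact E) := by
  refine (tendsto_ι h (nm_B2 hw)).congr fun n => ?_
  rw [map_pow]

theorem nc_E (h : Adm ι a) : NoncompactSpace E := by
  obtain ⟨x, hx0, hx1⟩ := NormedField.exists_norm_lt_one k
  have hx : x ≠ 0 := norm_pos_iff.1 hx0
  have h1 := coc1 h (w := Units.mk0 x hx) hx1
  rw [← Filter.cocompact_neBot_iff]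
  exact h1.neBot

/-! ### Moore sets -/

theorem moore_of (h : Adm ι a) {p : S4 k → Prop} {S : Set E} (hS : ∀ g, p g → ι g ∈ S)
    (hu : ∀ C : ℝ, ∃ g : S4 k, p g ∧ C < ‖(fun i j => g.1.1 i j : Fin 4 → Fin 4 → k)‖) :
    Moore S := by
  refine H455.moore_mono (h.moore {g | p g} fun C => ?_) ?_
  · obtain ⟨g, hg, hC⟩ := hu C
    exact ⟨g, hg, hC.le⟩
  · rintro _ ⟨g, hg, rfl⟩
    exact hS g hg

theorem moore_pp (h : Adm ι a) (x y : YY k 3) :
    letI := actP a
    Moore {e : E | e • x = x ∧ e • y = y} := by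
  letI := actP a
  exact moore_of h (p := fun g => g • x = x ∧ g • y = y)
    (fun g hg => ⟨(actP_ι h g x).trans hg.1, (actP_ι h g y).trans hg.2⟩)
    (H714.S4M.unb_pp x y)

theorem moore_p (h : Adm ι a) (x : YY k 3) :
    letI := actP a
    Moore {e : E | e • x = x} := by
  letI := actP a
  exact H455.moore_mono (moore_pp h x x) fun e he => he.1

theorem moore_ll (h : Adm ι a) (x y : LL k) :
    letI := actL h
    Moore {e : E | e • x = x ∧ e • y = y} := by
  letI := actL h
  exact moore_of h (p := fun g => g • x = x ∧ g • y = y)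
    (fun g hg => ⟨(actL_ι h g x).trans hg.1, (actL_ι h g y).trans hg.2⟩)
    (H714.S4M.unb_ll x y)

theorem moore_l (h : Adm ι a) (x : LL k) :
    letI := actL h
    Moore {e : E | e • x = x} := by
  letI := actL h
  exact H455.moore_mono (moore_ll h x x) fun e he => he.1

theorem gen_pp (h : Adm ι a) {x y : YY k 3} (hne : x ≠ y) :
    letI := actP a
    Subgroup.closure ({e : E | e • x = x} ∪ {e | e • y = y}) = ⊤ := by
  letI := actP a
  have h1 : (Subgroup.closure ({e : E | e • x = x} ∪ {e | e • y = y})).comap ι = ⊤ :=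
    H714.S4M.gen_pp hne
      (fun g hg => Subgroup.subset_closure (Or.inl ((actP_ι h g x).trans hg)))
      (fun g hg => Subgroup.subset_closure (Or.inr ((actP_ι h g y).trans hg)))
  rw [eq_top_iff]
  rintro e -
  obtain ⟨g, rfl⟩ := h.sur e
  have h2 : g ∈ (Subgroup.closure ({e : E | e • x = x} ∪ {e | e • y = y})).comap ι := by
    rw [h1]; trivial
  exact h2

theorem gen_ll (h : Adm ι a) {x y : LL k} (hne : x ≠ y) :
    letI := actL h
    Subgroup.closure ({e : E | e • x = x} ∪ {e | e • y = y}) = ⊤ := by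
  letI := actL h
  have h1 : (Subgroup.closure ({e : E | e • x = x} ∪ {e | e • y = y})).comap ι = ⊤ :=
    H714.S4M.gen_ll hne
      (fun g hg => Subgroup.subset_closure (Or.inl ((actL_ι h g x).trans hg)))
      (fun g hg => Subgroup.subset_closure (Or.inr ((actL_ι h g y).trans hg)))
  rw [eq_top_iff]
  rintro e -
  obtain ⟨g, rfl⟩ := h.sur e
  have h2 : g ∈ (Subgroup.closure ({e : E | e • x = x} ∪ {e | e • y = y})).comap ι := by
    rw [h1]; trivial
  exact h2

/-! ### Lifts of a subgroup of `E` -/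

variable {Γ : Subgroup E} {q : Γ → S4 k}

/-- an element acting trivially on the points is central -/
theorem central_of_sp (h : Adm ι a) {g : S4 k} (hg : sp k 4 g.1 = 1) (e : E) :
    ι g * e = e * ι g := by
  obtain ⟨g', rfl⟩ := h.sur e
  rw [← map_mul, ← map_mul]
  congr 1
  obtain ⟨c, hc⟩ := H35.sp_one_iff.1 hg
  apply Subtype.ext
  apply Subtype.ext
  change g.1.1 * g'.1.1 = g'.1.1 * g.1.1
  rw [hc, smul_mul_assoc, mul_smul_comm, Matrix.one_mul, Matrix.mul_one]

/-- lifts are homomorphisms modulo scalars -/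
theorem ph_lift (h : Adm ι a) (hq : ∀ γ, ι (q γ) = γ) : PH q := by
  intro γ γ'
  have h1 : sp k 4 (q (γ * γ')).1 = sp k 4 (q γ * q γ').1 := by
    rw [← a_ι h, ← a_ι h, hq, map_mul, hq, hq]
    rfl
  have h2 : sp k 4 ((q (γ * γ')).1 * ((q γ * q γ').1)⁻¹) = 1 := by
    rw [map_mul, map_inv, h1, mul_inv_cancel]
  obtain ⟨c, hc⟩ := H35.sp_one_iff.1 h2
  refine ⟨c, ?_⟩
  have h3 : (q (γ * γ')).1 = ((q (γ * γ')).1 * ((q γ * q γ').1)⁻¹) * (q γ * q γ').1 := by
    rw [inv_mul_cancel_right]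
  have h4 := congrArg Subtype.val h3
  change (q (γ * γ')).1.1 = _ at h4
  rw [h4]
  change ((q (γ * γ')).1 * ((q γ * q γ').1)⁻¹).1 * (q γ * q γ').1.1 = c • ((q γ).1 * (q γ').1).1
  rw [hc, smul_mul_assoc, Matrix.one_mul]
  rfl

/-- lifts of an ICC subgroup are injective modulo scalars -/
theorem inj_lift (h : Adm ι a) (hq : ∀ γ, ι (q γ) = γ)
    (hicc : ∀ g : Γ, g ≠ 1 → Set.Infinite {y : Γ | ∃ h, y = h * g * h⁻¹}) (γ : Γ)
    (hγ : sp k 4 (q γ).1 = 1) : γ = 1 := by
  by_contra hne
  refine hicc γ hne ((Set.finite_singleton γ).subset ?_)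
  rintro _ ⟨x, rfl⟩
  rw [Set.mem_singleton_iff]
  apply Subtype.ext
  change (x : E) * (γ : E) * (x : E)⁻¹ = γ
  have h1 := central_of_sp h hγ (x : E)
  rw [hq] at h1
  rw [← h1, mul_inv_cancel_right]

end src

end Vale.Agent.P092.SP
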