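import Vale.Agent.P092.SP.Blocks2
import Vale.Agent.P092.SP.Com

/-!
P092, TEAM P: the joints of one leg (helper142). Every `Stmt` is a literal `Prop`;
`one_of` derives `OneStmt` (SP/Blocks2) from them.
-/

set_option linter.all false

open scoped InnerProductSpace ENNReal LinearAlgebra.Projectivization
open Filter Topology ContinuousLinearMap MeasureTheory TopologicalSpace

namespace Vale.Agent.P092.SP

open Vale.Agent.P092.RC (Cm TRN Moore GG PG YY y0)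
open Vale.Agent.P092.SP4

section legs

variable {k : Type} [NontriviallyNormedField k] [ProperSpace k] {E Γ K : Type} [Group E]
  [TopologicalSpace E] [Group Γ] [NormedAddCommGroup K] [InnerProductSpace ℂ K] [CompleteSpace K]

/-- straight leg: points go to points, lines go to lines -/
abbrev LegS [MeasurableSpace k] (μ : Measure k) (w : kˣ) (𝒰 : Ultrafilter ℕ) (ι : S4 k →* E)
    (a : E →* PG k 4) (π : E →* (K →L[ℂ] K)) (lam : Γ →* (K →L[ℂ] K)) (W : Set (K →L[ℂ] K))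
    (Ω : K) (m : Set Γ → (K →L[ℂ] K)) (q : Γ → S4 k)
    (Ec : YY k 3 → (C(YY k 3, ℂ) →⋆ₐ[ℂ] (K →L[ℂ] K)))
    (F : LL k → (C(LL k, ℂ) →⋆ₐ[ℂ] (K →L[ℂ] K))) : Prop :=
  LegC on μ w 𝒰 ι a π lam W Ω m q (NA1 q) (NA2 q) Ec F

/-- flipped leg: points go to lines, lines go to points -/
abbrev LegF [MeasurableSpace k] (μ : Measure k) (w : kˣ) (𝒰 : Ultrafilter ℕ) (ι : S4 k →* E)
    (a : E →* PG k 4) (π : E →* (K →L[ℂ] K)) (lam : Γ →* (K →L[ℂ] K)) (W : Set (K →L[ℂ] K))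
    (Ω : K) (m : Set Γ → (K →L[ℂ] K)) (q : Γ → S4 k)
    (Ec : YY k 3 → (C(LL k, ℂ) →⋆ₐ[ℂ] (K →L[ℂ] K)))
    (F : LL k → (C(YY k 3, ℂ) →⋆ₐ[ℂ] (K →L[ℂ] K))) : Prop :=
  LegC (flip on) μ w 𝒰 ι a π lam W Ω m q (NA2 q) (NA1 q) Ec F

end legs

section stmts

variable (k : Type) [NontriviallyNormedField k] [ProperSpace k]

/-- **[P-PUR]** purity and permutation of the types (helper306, 43, 854, 673, 53, 604, 828) -/
def PurStmt [MeasurableSpace k] (μ : Measure k) : Prop :=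
  ∀ {E Γ K : Type} [Group E] [TopologicalSpace E] [Group Γ] [NormedAddCommGroup K]
    [InnerProductSpace ℂ K] [CompleteSpace K] (w : kˣ) (𝒰 : Ultrafilter ℕ) (ι : S4 k →* E)
    (a : E →* PG k 4) (π : E →* (K →L[ℂ] K)) (lam : Γ →* (K →L[ℂ] K)) (W : Set (K →L[ℂ] K))
    (Ω : K) (m : Set Γ → (K →L[ℂ] K)) (q : Γ → S4 k)
    (U11 : YY k 3 → (C(YY k 3, ℂ) →ₗ[ℂ] (K →L[ℂ] K))) (p11 : ℝ)
    (U12 : YY k 3 → (C(LL k, ℂ) →ₗ[ℂ] (K →L[ℂ] K))) (p12 : ℝ)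
    (U21 : LL k → (C(YY k 3, ℂ) →ₗ[ℂ] (K →L[ℂ] K))) (p21 : ℝ)
    (U22 : LL k → (C(LL k, ℂ) →ₗ[ℂ] (K →L[ℂ] K))) (p22 : ℝ),
    LegP μ w 𝒰 ι a π lam W Ω m q U11 p11 U12 p12 U21 p21 U22 p22 →
    (p11 = 1 ∧ p22 = 1) ∨ (p12 = 1 ∧ p21 = 1)

/-- **[P-0]** the calculi are *-homomorphisms, straight types (helper631, 828, 283, 616, 495) -/
def ZeroStmt [MeasurableSpace k] (μ : Measure k) : Prop :=
  ∀ {E Γ K : Type} [Group E] [TopologicalSpace E] [Group Γ] [NormedAddCommGroup K]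
    [InnerProductSpace ℂ K] [CompleteSpace K] (w : kˣ) (𝒰 : Ultrafilter ℕ) (ι : S4 k →* E)
    (a : E →* PG k 4) (π : E →* (K →L[ℂ] K)) (lam : Γ →* (K →L[ℂ] K)) (W : Set (K →L[ℂ] K))
    (Ω : K) (m : Set Γ → (K →L[ℂ] K)) (q : Γ → S4 k)
    (U11 : YY k 3 → (C(YY k 3, ℂ) →ₗ[ℂ] (K →L[ℂ] K))) (p11 : ℝ)
    (U12 : YY k 3 → (C(LL k, ℂ) →ₗ[ℂ] (K →L[ℂ] K))) (p12 : ℝ)
    (U21 : LL k → (C(YY k 3, ℂ) →ₗ[ℂ] (K →L[ℂ] K))) (p21 : ℝ)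
    (U22 : LL k → (C(LL k, ℂ) →ₗ[ℂ] (K →L[ℂ] K))) (p22 : ℝ),
    LegP μ w 𝒰 ι a π lam W Ω m q U11 p11 U12 p12 U21 p21 U22 p22 → p11 = 1 → p22 = 1 →
    ∃ Ec F, (∀ c f, Ec c f = U11 c f) ∧ (∀ l f, F l f = U22 l f) ∧
      LegS μ w 𝒰 ι a π lam W Ω m q Ec F

/-- **[P-0]**, flipped types -/
def ZeroStmt' [MeasurableSpace k] (μ : Measure k) : Prop :=
  ∀ {E Γ K : Type} [Group E] [TopologicalSpace E] [Group Γ] [NormedAddCommGroup K]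
    [InnerProductSpace ℂ K] [CompleteSpace K] (w : kˣ) (𝒰 : Ultrafilter ℕ) (ι : S4 k →* E)
    (a : E →* PG k 4) (π : E →* (K →L[ℂ] K)) (lam : Γ →* (K →L[ℂ] K)) (W : Set (K →L[ℂ] K))
    (Ω : K) (m : Set Γ → (K →L[ℂ] K)) (q : Γ → S4 k)
    (U11 : YY k 3 → (C(YY k 3, ℂ) →ₗ[ℂ] (K →L[ℂ] K))) (p11 : ℝ)
    (U12 : YY k 3 → (C(LL k, ℂ) →ₗ[ℂ] (K →L[ℂ] K))) (p12 : ℝ)
    (U21 : LL k → (C(YY k 3, ℂ) →ₗ[ℂ] (K →L[ℂ] K))) (p21 : ℝ)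
    (U22 : LL k → (C(LL k, ℂ) →ₗ[ℂ] (K →L[ℂ] K))) (p22 : ℝ),
    LegP μ w 𝒰 ι a π lam W Ω m q U11 p11 U12 p12 U21 p21 U22 p22 → p12 = 1 → p21 = 1 →
    ∃ Ec F, (∀ c f, Ec c f = U12 c f) ∧ (∀ l f, F l f = U21 l f) ∧
      LegF μ w 𝒰 ι a π lam W Ω m q Ec F

/-- **[P-K1]** KEY for points, straight types (helper217) -/
def Key1Stmt [MeasurableSpace k] (μ : Measure k) : Prop :=
  ∀ {E Γ K : Type} [Group E] [TopologicalSpace E] [Group Γ] [NormedAddCommGroup K]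
    [InnerProductSpace ℂ K] [CompleteSpace K] (w : kˣ) (𝒰 : Ultrafilter ℕ) (ι : S4 k →* E)
    (a : E →* PG k 4) (π : E →* (K →L[ℂ] K)) (lam : Γ →* (K →L[ℂ] K)) (W : Set (K →L[ℂ] K))
    (Ω : K) (m : Set Γ → (K →L[ℂ] K)) (q : Γ → S4 k)
    (Ec : YY k 3 → (C(YY k 3, ℂ) →⋆ₐ[ℂ] (K →L[ℂ] K)))
    (F : LL k → (C(LL k, ℂ) →⋆ₐ[ℂ] (K →L[ℂ] K))),
    LegS μ w 𝒰 ι a π lam W Ω m q Ec F → Key1 on Ec F

/-- **[P-K1]** flipped types: the localiser is a point of the source, a line of the target -/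
def Key1Stmt' [MeasurableSpace k] (μ : Measure k) : Prop :=
  ∀ {E Γ K : Type} [Group E] [TopologicalSpace E] [Group Γ] [NormedAddCommGroup K]
    [InnerProductSpace ℂ K] [CompleteSpace K] (w : kˣ) (𝒰 : Ultrafilter ℕ) (ι : S4 k →* E)
    (a : E →* PG k 4) (π : E →* (K →L[ℂ] K)) (lam : Γ →* (K →L[ℂ] K)) (W : Set (K →L[ℂ] K))
    (Ω : K) (m : Set Γ → (K →L[ℂ] K)) (q : Γ → S4 k)
    (Ec : YY k 3 → (C(LL k, ℂ) →⋆ₐ[ℂ] (K →L[ℂ] K)))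
    (F : LL k → (C(YY k 3, ℂ) →⋆ₐ[ℂ] (K →L[ℂ] K))),
    LegF μ w 𝒰 ι a π lam W Ω m q Ec F → Key1 (flip on) Ec F

/-- **[P-K2]** KEY for lines, straight types (helper464) -/
def Key2Stmt [MeasurableSpace k] (μ : Measure k) : Prop :=
  ∀ {E Γ K : Type} [Group E] [TopologicalSpace E] [Group Γ] [NormedAddCommGroup K]
    [InnerProductSpace ℂ K] [CompleteSpace K] (w : kˣ) (𝒰 : Ultrafilter ℕ) (ι : S4 k →* E)
    (a : E →* PG k 4) (π : E →* (K →L[ℂ] K)) (lam : Γ →* (K →L[ℂ] K)) (W : Set (K →L[ℂ] K))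
    (Ω : K) (m : Set Γ → (K →L[ℂ] K)) (q : Γ → S4 k)
    (Ec : YY k 3 → (C(YY k 3, ℂ) →⋆ₐ[ℂ] (K →L[ℂ] K)))
    (F : LL k → (C(LL k, ℂ) →⋆ₐ[ℂ] (K →L[ℂ] K))),
    LegS μ w 𝒰 ι a π lam W Ω m q Ec F → Key2 on Ec F

/-- **[P-K2]** flipped types -/
def Key2Stmt' [MeasurableSpace k] (μ : Measure k) : Prop :=
  ∀ {E Γ K : Type} [Group E] [TopologicalSpace E] [Group Γ] [NormedAddCommGroup K]
    [InnerProductSpace ℂ K] [CompleteSpace K] (w : kˣ) (𝒰 : Ultrafilter ℕ) (ι : S4 k →* E)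
    (a : E →* PG k 4) (π : E →* (K →L[ℂ] K)) (lam : Γ →* (K →L[ℂ] K)) (W : Set (K →L[ℂ] K))
    (Ω : K) (m : Set Γ → (K →L[ℂ] K)) (q : Γ → S4 k)
    (Ec : YY k 3 → (C(LL k, ℂ) →⋆ₐ[ℂ] (K →L[ℂ] K)))
    (F : LL k → (C(YY k 3, ℂ) →⋆ₐ[ℂ] (K →L[ℂ] K))),
    LegF μ w 𝒰 ι a π lam W Ω m q Ec F → Key2 (flip on) Ec F

/-- **[P-SYN]** the middle letter is free (helper677, 796: totally disconnected; helper336: `ℝ`) -/
def SynStmt : Prop :=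
  ∀ {K : Type} [NormedAddCommGroup K] [InnerProductSpace ℂ K] [CompleteSpace K]
    (b : C(YY k 3, ℂ) →⋆ₐ[ℂ] (K →L[ℂ] K)) (l : C(LL k, ℂ) →⋆ₐ[ℂ] (K →L[ℂ] K)),
    H796.PL on b l → H677.Syn b l ∧ H677.Syn l b

/-- **[P-FLIP]** no flipped leg in which everything commutes (helper820) -/
def FlipStmt : Prop :=
  ∀ {K : Type} [NormedAddCommGroup K] [InnerProductSpace ℂ K] [CompleteSpace K] [Nontrivial K]
    (Ec : YY k 3 → (C(LL k, ℂ) →⋆ₐ[ℂ] (K →L[ℂ] K)))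
    (F : LL k → (C(YY k 3, ℂ) →⋆ₐ[ℂ] (K →L[ℂ] K))),
    (∀ c l, on c l → H796.PL (flip on) (Ec c) (F l)) →
    (∀ v v', v ≠ v' → ∀ ξ, (∀ f, Ec v f ξ = Ec v' f ξ) → ξ = 0) →
    (∀ v v', v ≠ v' → ∀ ξ, (∀ f, F v f ξ = F v' f ξ) → ξ = 0) → Com Ec F → False

end stmts

section main

variable {k : Type} [NontriviallyNormedField k] [ProperSpace k] {E Γ K : Type} [Group E]
  [TopologicalSpace E] [Group Γ] [NormedAddCommGroup K] [InnerProductSpace ℂ K] [CompleteSpace K]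
  [MeasurableSpace k] {μ : Measure k} {w : kˣ} {𝒰 : Ultrafilter ℕ} {ι : S4 k →* E}
  {a : E →* PG k 4} {π : E →* (K →L[ℂ] K)} {lam : Γ →* (K →L[ℂ] K)} {W : Set (K →L[ℂ] K)}
  {Ω : K} {m : Set Γ → (K →L[ℂ] K)} {q : Γ → S4 k}

/-- **[P-COM]**, straight types -/
theorem comS (syn : SynStmt k) {Ec : YY k 3 → (C(YY k 3, ℂ) →⋆ₐ[ℂ] (K →L[ℂ] K))}
    {F : LL k → (C(LL k, ℂ) →⋆ₐ[ℂ] (K →L[ℂ] K))} (h : LegS μ w 𝒰 ι a π lam W Ω m q Ec F)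
    (k1 : Key1 on Ec F) (k2 : Key2 on Ec F) : Com Ec F := by
  obtain ⟨h1, h2, h3⟩ := gq_com gq_on gq_on on_closed h.pl h.e.agr h.f.agr
    (fun c l hc => (syn _ _ (h.pl c l hc)).1) (fun c l hc => (syn _ _ (h.pl c l hc)).2) k1 k2
  exact ⟨h1, h2, h3⟩

/-- **[P-COM]**, flipped types -/
theorem comF (syn : SynStmt k) {Ec : YY k 3 → (C(LL k, ℂ) →⋆ₐ[ℂ] (K →L[ℂ] K))}
    {F : LL k → (C(YY k 3, ℂ) →⋆ₐ[ℂ] (K →L[ℂ] K))} (h : LegF μ w 𝒰 ι a π lam W Ω m q Ec F)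
    (k1 : Key1 (flip on) Ec F) (k2 : Key2 (flip on) Ec F) : Com Ec F := by
  have hI' : IsClosed {p : LL k × YY k 3 | flip on p.1 p.2} :=
    (on_closed (k := k)).preimage (f := fun q : LL k × YY k 3 => (q.2, q.1)) (by fun_prop)
  obtain ⟨h1, h2, h3⟩ := gq_com gq_on (gq_on (k := k)).dual hI' h.pl h.e.agr h.f.agr
    (fun c l hc => (syn _ _ (pl_flip (h.pl c l hc))).2)
    (fun c l hc => (syn _ _ (pl_flip (h.pl c l hc))).1) k1 k2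
  exact ⟨h1, h2, h3⟩

/-- **the first half of Team P** -/
theorem one_of (hP : PurStmt k μ) (h0 : ZeroStmt k μ) (h0' : ZeroStmt' k μ) (h1 : Key1Stmt k μ)
    (h1' : Key1Stmt' k μ) (h2 : Key2Stmt k μ) (h2' : Key2Stmt' k μ) (syn : SynStmt k)
    (hF : FlipStmt k) : OneStmt k μ := by
  intro E Γ K _ _ _ _ _ _ w 𝒰 ι a π lam W Ω m q h
  obtain ⟨U11, p11, U12, p12, U21, p21, U22, p22, h⟩ := h
  rcases hP w 𝒰 ι a π lam W Ω m q U11 p11 U12 p12 U21 p21 U22 p22 h with ⟨e1, e2⟩ | ⟨e1, e2⟩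
  · obtain ⟨Ec, F, -, -, hl⟩ := h0 w 𝒰 ι a π lam W Ω m q U11 p11 U12 p12 U21 p21 U22 p22 h e1 e2
    exact ⟨Ec, F, hl, comS syn hl (h1 w 𝒰 ι a π lam W Ω m q Ec F hl)
      (h2 w 𝒰 ι a π lam W Ω m q Ec F hl)⟩
  · obtain ⟨Ec, F, -, -, hl⟩ := h0' w 𝒰 ι a π lam W Ω m q U11 p11 U12 p12 U21 p21 U22 p22 h e1 e2
    have hn : Nontrivial K := ⟨Ω, 0, fun h0 => by
      have := h.base.pic.nΩ
      rw [h0, norm_zero] at this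
      exact zero_ne_one this⟩
    exact (hF Ec F hl.pl hl.e.agr hl.f.agr (comF syn hl (h1' w 𝒰 ι a π lam W Ω m q Ec F hl)
      (h2' w 𝒰 ι a π lam W Ω m q Ec F hl))).elim

end main

end Vale.Agent.P092.SP
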