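import Vale.Agent.P092.SP.Defs
import Vale.Agent.P092.SN.Blocks2

/-!
P092, TEAM P (helper805): the second half of the joints (the classical leg, the cross leg, the
concrete picture). Every `Stmt` is a literal `Prop`; `SP/Main.lean` derives `CoreE` from them.
-/

set_option linter.all false

open scoped InnerProductSpace ENNReal LinearAlgebra.Projectivization ZeroAtInfty
open Filter Topology ContinuousLinearMap MeasureTheory TopologicalSpace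

namespace Vale.Agent.P092.SP

open Vale.Agent.P092.RC (Cm TRN Moore GG PG YY y0)
open Vale.Agent.P092.H35 (sp)
open Vale.Agent.P092.SP4
open Vale.Agent.P092.SN (ClsN TVE)

/-- the data of one leg: `∃ U p, LegP` -/
def HasLeg {k : Type} [NontriviallyNormedField k] [ProperSpace k] [MeasurableSpace k]
    {E Γ K : Type} [Group E] [TopologicalSpace E] [Group Γ] [NormedAddCommGroup K]
    [InnerProductSpace ℂ K] [CompleteSpace K] (μ : Measure k) (w : kˣ) (𝒰 : Ultrafilter ℕ)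
    (ι : S4 k →* E) (a : E →* PG k 4) (π : E →* (K →L[ℂ] K)) (lam : Γ →* (K →L[ℂ] K))
    (W : Set (K →L[ℂ] K)) (Ω : K) (m : Set Γ → (K →L[ℂ] K)) (q : Γ → S4 k) : Prop :=
  ∃ (U11 : YY k 3 → (C(YY k 3, ℂ) →ₗ[ℂ] (K →L[ℂ] K))) (p11 : ℝ)
    (U12 : YY k 3 → (C(LL k, ℂ) →ₗ[ℂ] (K →L[ℂ] K))) (p12 : ℝ)
    (U21 : LL k → (C(YY k 3, ℂ) →ₗ[ℂ] (K →L[ℂ] K))) (p21 : ℝ)
    (U22 : LL k → (C(LL k, ℂ) →ₗ[ℂ] (K →L[ℂ] K))) (p22 : ℝ),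
    LegP μ w 𝒰 ι a π lam W Ω m q U11 p11 U12 p12 U21 p21 U22 p22

section stmts

variable (k : Type) [NontriviallyNormedField k] [ProperSpace k]

/-- **[P-1]** (SP/Blocks): from one leg to a straight leg in which everything commutes. -/
def OneStmt [MeasurableSpace k] (μ : Measure k) : Prop :=
  ∀ {E Γ K : Type} [Group E] [TopologicalSpace E] [Group Γ] [NormedAddCommGroup K]
    [InnerProductSpace ℂ K] [CompleteSpace K] (w : kˣ) (𝒰 : Ultrafilter ℕ) (ι : S4 k →* E)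
    (a : E →* PG k 4) (π : E →* (K →L[ℂ] K)) (lam : Γ →* (K →L[ℂ] K)) (W : Set (K →L[ℂ] K))
    (Ω : K) (m : Set Γ → (K →L[ℂ] K)) (q : Γ → S4 k),
    HasLeg μ w 𝒰 ι a π lam W Ω m q →
    ∃ (Ec : YY k 3 → (C(YY k 3, ℂ) →⋆ₐ[ℂ] (K →L[ℂ] K)))
      (F : LL k → (C(LL k, ℂ) →⋆ₐ[ℂ] (K →L[ℂ] K))),
      LegComm μ w 𝒰 ι a π lam W Ω m q Ec F

/-- **[P-CLS]** (helper416) -/
def ClsStmt [MeasurableSpace k] (μ : Measure k) : Prop :=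
  ∀ {E Γ K : Type} [Group E] [TopologicalSpace E] [Group Γ] [NormedAddCommGroup K]
    [InnerProductSpace ℂ K] [CompleteSpace K] (w : kˣ) (𝒰 : Ultrafilter ℕ) (ι : S4 k →* E)
    (a : E →* PG k 4) (π : E →* (K →L[ℂ] K)) (lam : Γ →* (K →L[ℂ] K)) (W : Set (K →L[ℂ] K))
    (Ω : K) (m : Set Γ → (K →L[ℂ] K)) (q : Γ → S4 k)
    (Ec : YY k 3 → (C(YY k 3, ℂ) →⋆ₐ[ℂ] (K →L[ℂ] K)))
    (F : LL k → (C(LL k, ℂ) →⋆ₐ[ℂ] (K →L[ℂ] K))),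
    LegComm μ w 𝒰 ι a π lam W Ω m q Ec F →
    ∃ (σ : k →+* k) (Q : C₀(PG k 4, ℂ) →⋆ₙₐ[ℂ] (K →L[ℂ] K)),
      ClsN (N := 3) a π lam W (fun γ => (q γ).1) Ec σ Q

/-- **[P-XC]** (helper325) the two legs commute -/
def XCStmt : Prop :=
  ∀ {E Γ K : Type} [Group E] [TopologicalSpace E] [Group Γ] [Countable Γ]
    [NormedAddCommGroup K] [InnerProductSpace ℂ K] [CompleteSpace K] (ι : S4 k →* E)
    (a : E →* PG k 4) (π : E →* (K →L[ℂ] K)) (lam₁ lam₂ : Γ →* (K →L[ℂ] K))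
    (X : Set (K →L[ℂ] K)) (Ω : K) (q₁ q₂ : Γ → S4 k)
    (E₁ E₂ : YY k 3 → (C(YY k 3, ℂ) →⋆ₐ[ℂ] (K →L[ℂ] K))) (σ₁ σ₂ : k →+* k)
    (Q₁ Q₂ : C₀(PG k 4, ℂ) →⋆ₙₐ[ℂ] (K →L[ℂ] K)),
    Adm ι a → RC.Pic2 π lam₁ lam₂ X Ω → TVE π lam₁ (X ∪ Set.range lam₂) Ω →
    TVE π lam₂ (X ∪ Set.range lam₁) Ω → PH q₁ → PH q₂ →
    (∀ C : ℝ, {γ : Γ | nm (q₁ γ) ≤ C}.Finite) → (∀ C : ℝ, {γ : Γ | nm (q₂ γ) ≤ C}.Finite) →
    ClsN (N := 3) a π lam₁ (X ∪ Set.range lam₂) (fun γ => (q₁ γ).1) E₁ σ₁ Q₁ →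
    ClsN (N := 3) a π lam₂ (X ∪ Set.range lam₁) (fun γ => (q₂ γ).1) E₂ σ₂ Q₂ →
    ∀ ψ φ, Commute (Q₁ ψ) (Q₂ φ)

open Vale.Agent.P092.SR Vale.Agent.P092.H160 Vale.Agent.P092.RC in
/-- **[P-EX]** (helper805) the concrete picture over a source group `E`: both legs -/
def ExStmt [MeasurableSpace k] (μ : Measure k) {E : Type} [Group E] [TopologicalSpace E]
    [IsTopologicalGroup E] [LocallyCompactSpace E] [SecondCountableTopology E] [T2Space E]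
    (ι : S4 k →* E) (a : E →* PG k 4) : Prop :=
  ∀ [MeasurableSpace E] [BorelSpace E] {Γ : Subgroup E} [DiscreteTopology Γ] [Countable Γ]
    [MeasurableSpace (E ⧸ Γ)] [BorelSpace (E ⧸ Γ)] {ν : Measure (E ⧸ Γ)}
    [IsProbabilityMeasure ν] (hν : ∀ g : E, ν.map (fun x => g • x) = ν)
    (_ : H515.St.IsLattice Γ) (_ : ∀ g : Γ, g ≠ 1 → Set.Infinite {y : Γ | ∃ h, y = h * g * h⁻¹})
    {Λ : Type} [Group Λ] [Countable Λ]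
    (_ : ∀ g : Λ, g ≠ 1 → Set.Infinite {y : Λ | ∃ h, y = h * g * h⁻¹})
    {α : Γ →* (Ell2 Λ →L[ℂ] Ell2 Λ)} (hα : Frame α),
    ∃ (w : kˣ) (𝒰 : Ultrafilter ℕ) (m₁ m₂ : Set Γ → (KK ν Λ →L[ℂ] KK ν Λ)) (q₁ q₂ : Γ → S4 k),
      HasLeg μ w 𝒰 ι a (pic hν hα) (lam₁ ν α) (XX ν Λ ∪ Set.range (lam₂ ν α)) (Om ν Λ) m₁ q₁ ∧
      HasLeg μ w 𝒰 ι a (pic hν hα) (lam₂ ν α) (XX ν Λ ∪ Set.range (lam₁ ν α)) (Om ν Λ) m₂ q₂ ∧
      (∀ γ, sp k 4 (q₁ γ).1 = 1 → γ = 1) ∧ (∀ γ, sp k 4 (q₂ γ).1 = 1 → γ = 1)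

end stmts

end Vale.Agent.P092.SP
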