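import Vale.Agent.P092.SP.Tw
import Vale.Agent.P092.SD.Flip

/-!
P092, TEAM P (helper53): the second leg is the flip of the first one, for any source group.
-/

set_option linter.all false

open scoped InnerProductSpace ENNReal LinearAlgebra.Projectivization ZeroAtInfty
open Filter Topology ContinuousLinearMap MeasureTheory TopologicalSpace Matrix

namespace Vale.Agent.P092.SP

open Vale.Agent.P092.SR Vale.Agent.P092.H160
open Vale.Agent.P092.RC (KK pic lam₁ lam₂ XX Om PG)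
open Vale.Agent.P092.H35 (sp)
open Vale.Agent.P092.SP4

/-- [P-EX] for the first leg. -/
def HalfStmt (k : Type) [NontriviallyNormedField k] [ProperSpace k] [MeasurableSpace k]
    (μ : Measure k) {E : Type} [Group E] [TopologicalSpace E]
    [IsTopologicalGroup E] [LocallyCompactSpace E] [SecondCountableTopology E] [T2Space E]
    (ι : S4 k →* E) (a : E →* PG k 4) : Prop :=
  ∀ [MeasurableSpace E] [BorelSpace E] {Γ : Subgroup E} [DiscreteTopology Γ] [Countable Γ]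
    [MeasurableSpace (E ⧸ Γ)] [BorelSpace (E ⧸ Γ)] {ν : Measure (E ⧸ Γ)}
    [IsProbabilityMeasure ν] (hν : ∀ g : E, ν.map (fun x => g • x) = ν)
    (_ : H515.St.IsLattice Γ) (_ : ∀ g : Γ, g ≠ 1 → Set.Infinite {y : Γ | ∃ h, y = h * g * h⁻¹})
    {Λ : Type} [Group Λ] [Countable Λ]
    (_ : ∀ g : Λ, g ≠ 1 → Set.Infinite {y : Λ | ∃ h, y = h * g * h⁻¹})
    {α : Γ →* (Ell2 Λ →L[ℂ] Ell2 Λ)} (hα : Frame α),
    ∃ (w : kˣ) (𝒰 : Ultrafilter ℕ) (m : Set Γ → (KK ν Λ →L[ℂ] KK ν Λ)) (q : Γ → S4 k),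
      HasLeg μ w 𝒰 ι a (pic hν hα) (lam₁ ν α) (XX ν Λ ∪ Set.range (lam₂ ν α)) (Om ν Λ) m q ∧
      (∀ γ, sp k 4 (q γ).1 = 1 → γ = 1)

theorem exStmt_of_half {k : Type} [NontriviallyNormedField k] [ProperSpace k] [MeasurableSpace k]
    {μ : Measure k} {E : Type} [Group E] [TopologicalSpace E]
    [IsTopologicalGroup E] [LocallyCompactSpace E] [SecondCountableTopology E] [T2Space E]
    {ι : S4 k →* E} {a : E →* PG k 4} (h : HalfStmt k μ ι a) : ExStmt k μ ι a := by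
  intro _ _ Γ _ _ _ _ ν _ hν hΓ hicc Λ _ _ hΛ α hα
  obtain ⟨w, 𝒰, m, q, h1, h2⟩ := h hν hΓ hicc hΛ hα
  exact ⟨w, 𝒰, m, _, q, q, h1, Tw.tw_hasLeg (SD.tw_flK hν hα) h1, h2, h2⟩

/-- a subgroup with infinite conjugacy classes contains no scalar -/
theorem inj_of_icc {k : Type} [NontriviallyNormedField k] {Γ : Subgroup (S4 k)}
    (h : ∀ g : Γ, g ≠ 1 → Set.Infinite {y : Γ | ∃ h, y = h * g * h⁻¹}) (γ : Γ)
    (hγ : sp k 4 γ.1.1 = 1) : γ = 1 := by
  have h1 : Function.Injective ((S4 k).subtype.comp Γ.subtype) := fun x y hxy =>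
    Subtype.ext (Subtype.ext hxy)
  refine H35.sp_inj_icc h1 h ?_
  rw [map_one]
  exact hγ

end Vale.Agent.P092.SP
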