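import Vale.Agent.P092.SP.Defs
import Vale.Agent.P092.H34.PicD

/-!
P092, Team P (helper805): `Sp_4(k)` as a topological group, the walls go to infinity, finite balls.
-/

set_option linter.all false

open Filter Topology MeasureTheory Matrix

namespace Vale.Agent.P092.SP

open Vale.Agent.P092.SP4
section grp

variable {k : Type} [NontriviallyNormedField k]

theorem continuous_val : Continuous fun g : S4 k => g.1.1 :=
  H303.isClosedEmbedding_val.continuous.comp continuous_subtype_val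

theorem b1_pow (w : kˣ) (n : ℕ) :
    ((b1 w : SpecialLinearGroup (Fin 4) k) ^ n).1 =
      Matrix.diagonal ![((w⁻¹ : kˣ) : k) ^ n, 1, 1, (w : k) ^ n] := by
  have e : ((b1 w : SpecialLinearGroup (Fin 4) k) ^ n).1 = (b1 w).1 ^ n := rfl
  rw [e]
  change (Matrix.diagonal ![((w⁻¹ : kˣ) : k), 1, 1, (w : k)]) ^ n = _
  rw [Matrix.diagonal_pow]
  congr 1
  funext i
  fin_cases i <;> simp

theorem b2_pow (w : kˣ) (n : ℕ) :
    ((b2 w : SpecialLinearGroup (Fin 4) k) ^ n).1 =
      Matrix.diagonal ![((w⁻¹ : kˣ) : k) ^ n, ((w⁻¹ : kˣ) : k) ^ n, (w : k) ^ n, (w : k) ^ n] := by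
  have e : ((b2 w : SpecialLinearGroup (Fin 4) k) ^ n).1 = (b2 w).1 ^ n := rfl
  rw [e]
  change (Matrix.diagonal ![((w⁻¹ : kˣ) : k), ((w⁻¹ : kˣ) : k), (w : k), (w : k)]) ^ n = _
  rw [Matrix.diagonal_pow]
  congr 1
  funext i
  fin_cases i <;> simp

theorem tendsto_entry {b : ℕ → S4 k} {w : kˣ} (hw : ‖(w : k)‖ < 1)
    (h : ∀ n, (b n).1.1 0 0 = ((w⁻¹ : kˣ) : k) ^ n) :
    Tendsto b atTop (cocompact (S4 k)) := by
  have hc : Continuous fun g : S4 k => g.1.1 0 0 :=
    (continuous_apply_apply 0 0).comp continuous_val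
  refine Tendsto.mono_right (tendsto_comap_iff.2 ?_) (Filter.comap_cocompact_le hc)
  have h1 : ((fun g : S4 k => g.1.1 0 0) ∘ b) = fun n : ℕ => ((w⁻¹ : kˣ) : k) ^ n := by
    funext n
    exact h n
  rw [h1]
  have h2 : 1 < ‖((w⁻¹ : kˣ) : k)‖ := by
    rw [Units.val_inv_eq_inv_val, norm_inv]
    exact one_lt_inv_iff₀.2 ⟨norm_pos_iff.2 w.ne_zero, hw⟩
  refine tendsto_norm_atTop_iff_cobounded.1 ?_ |>.mono_right (Metric.cobounded_le_cocompact)
  simp only [norm_pow]
  exact tendsto_pow_atTop_atTop_of_one_lt h2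

theorem pow_B1 {w : kˣ} (hw : ‖(w : k)‖ < 1) :
    Tendsto (fun n : ℕ => (B1 w : S4 k) ^ n) atTop (cocompact (S4 k)) := by
  refine tendsto_entry hw fun n => ?_
  change ((b1 w : SpecialLinearGroup (Fin 4) k) ^ n).1 0 0 = _
  rw [b1_pow, Matrix.diagonal_apply_eq]
  rfl

theorem pow_B2 {w : kˣ} (hw : ‖(w : k)‖ < 1) :
    Tendsto (fun n : ℕ => (B2 w : S4 k) ^ n) atTop (cocompact (S4 k)) := by
  refine tendsto_entry hw fun n => ?_
  change ((b2 w : SpecialLinearGroup (Fin 4) k) ^ n).1 0 0 = _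
  rw [b2_pow, Matrix.diagonal_apply_eq]
  rfl

theorem nc_S4 : NoncompactSpace (S4 k) := by
  obtain ⟨x, hx0, hx1⟩ := NormedField.exists_norm_lt_one k
  have hx : x ≠ 0 := norm_pos_iff.1 hx0
  have h1 := pow_B1 (w := Units.mk0 x hx) hx1
  rw [← Filter.cocompact_neBot_iff]
  exact h1.neBot

variable [ProperSpace k]

theorem lc_S4 : LocallyCompactSpace (S4 k) :=
  H303.locallyCompact_formGroup continuous_id _

theorem sc_S4 : SecondCountableTopology (S4 k) :=
  H303.secondCountable_formGroup _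

theorem compact_nm (C : ℝ) : IsCompact {g : S4 k | nm g ≤ C} := by
  have h1 : IsCompact (Metric.closedBall (0 : Fin 4 → Fin 4 → k) C) := isCompact_closedBall _ _
  have h2 : Topology.IsClosedEmbedding
      (fun g : S4 k => (g.1.1 : Matrix (Fin 4) (Fin 4) k)) :=
    H303.isClosedEmbedding_val.comp
      (H303.isClosed_formGroup (σ := RingHom.id k) continuous_id (J4 k)).isClosedEmbedding_subtypeVal
  have h4 : Topology.IsClosedEmbedding
      (fun g : S4 k => (fun i j => g.1.1 i j : Fin 4 → Fin 4 → k)) := h2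
  have h3 := h4.isCompact_preimage h1
  have e : {g : S4 k | nm g ≤ C} =
      (fun g : S4 k => (fun i j => g.1.1 i j : Fin 4 → Fin 4 → k)) ⁻¹'
      Metric.closedBall (0 : Fin 4 → Fin 4 → k) C := by
    ext g
    change nm g ≤ C ↔ (fun i j => g.1.1 i j : Fin 4 → Fin 4 → k) ∈
      Metric.closedBall (0 : Fin 4 → Fin 4 → k) C
    rw [mem_closedBall_zero_iff]
    rfl
  rw [e]
  exact h3

theorem disc_S4 (Γ : Subgroup (S4 k)) [DiscreteTopology Γ] (C : ℝ) :
    {γ : Γ | nm γ.1 ≤ C}.Finite := by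
  haveI := lc_S4 (k := k)
  exact H790.finite_inter Γ (compact_nm C)

end grp

end Vale.Agent.P092.SP
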