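import Vale.Agent.P092.SP.Blocks2
import Vale.Agent.P092.SP.Grp
import Vale.Agent.P092.SP.Top
import Vale.Agent.P092.SN.Main

/-!
P092, TEAM P (helper805): the assembly. `CoreE E` from the joints for an admissible source group
`E`, and the final statements for `Sp_4(k)`, `k` a local field with `2 ≠ 0`.
-/

set_option linter.all false

open scoped InnerProductSpace ENNReal LinearAlgebra.Projectivization ZeroAtInfty
open Filter Topology ContinuousLinearMap MeasureTheory TopologicalSpace Matrix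

namespace Vale.Agent.P092.SP

open Vale.Agent.P092.RC (Cm TRN Moore GG PG YY y0)
open Vale.Agent.P092.H35 (sp)
open Vale.Agent.P092.SP4
open Vale.Agent.P092.SN (ClsN TVE CoreE cleg_of)
open Vale.Agent.P092.SR Vale.Agent.P092.H160
open Vale.Agent.P092.RC (KK pic lam₁ lam₂ XX Om)

/-- **Assembly.** -/
theorem coreE_of {k : Type} [NontriviallyNormedField k] [ProperSpace k] [MeasurableSpace k]
    {μ : Measure k} {E : Type} [Group E] [TopologicalSpace E]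
    [IsTopologicalGroup E] [LocallyCompactSpace E] [SecondCountableTopology E] [T2Space E]
    [NoncompactSpace E] {ι : S4 k →* E} {a : E →* PG k 4}
    (hOne : OneStmt k μ) (hCls : ClsStmt k μ) (hXC : XCStmt k) (hEx : ExStmt k μ ι a) :
    CoreE E := by
  intro Γ hΓ hicc Λ _ _ hΛ α hα
  letI : MeasurableSpace E := borel _
  haveI : BorelSpace E := ⟨rfl⟩
  haveI hd : DiscreteTopology Γ := hΓ.disc
  haveI hc : Countable Γ := H790.countable_of_discrete (E := E) Γ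
  letI : MeasurableSpace (E ⧸ Γ) := borel _
  haveI : BorelSpace (E ⧸ Γ) := ⟨rfl⟩
  obtain ⟨ν, hP', hν⟩ := H515.IsLattice.exists_prob (Λ := Γ) ⟨hΓ.disc, hΓ.covol⟩
  have p2 := H34.PicC.pic2 hν hα hΛ
  have tv1 : TVE (pic hν hα) (lam₁ ν α) (XX ν Λ ∪ Set.range (lam₂ ν α)) (Om ν Λ) := by
    rintro Y ⟨hY, hY1⟩ h
    exact H103.tv_gen hν hα (fun A hA => hY _ (Or.inl ⟨A, hA, rfl⟩)) hY1
      (fun g => hY _ (Or.inr ⟨g, rfl⟩)) h
  have tv2 : TVE (pic hν hα) (lam₂ ν α) (XX ν Λ ∪ Set.range (lam₁ ν α)) (Om ν Λ) := by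
    rintro Y ⟨hY, hY1⟩ h
    exact H103.tv_gen hν hα (fun A hA => hY _ (Or.inl ⟨A, hA, rfl⟩))
      (fun g => hY _ (Or.inr ⟨g, rfl⟩)) hY1 h
  obtain ⟨w, 𝒰, m₁, m₂, q₁, q₂, l1, l2, i1, i2⟩ := hEx (Γ := Γ) hν hΓ hicc hΛ hα
  obtain ⟨E₁, F₁, c1⟩ := hOne w 𝒰 ι a _ _ _ _ m₁ q₁ l1
  obtain ⟨E₂, F₂, c2⟩ := hOne w 𝒰 ι a _ _ _ _ m₂ q₂ l2
  obtain ⟨σ₁, Q₁, hQ1⟩ := hCls w 𝒰 ι a _ _ _ _ m₁ q₁ E₁ F₁ c1
  obtain ⟨σ₂, Q₂, hQ2⟩ := hCls w 𝒰 ι a _ _ _ _ m₂ q₂ E₂ F₂ c2
  have hX := hXC ι a _ _ _ _ _ q₁ q₂ E₁ E₂ σ₁ σ₂ Q₁ Q₂ c1.leg.base.adm p2 tv1 tv2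
    c1.leg.base.ph c2.leg.base.ph c1.leg.base.fin c2.leg.base.fin hQ1 hQ2
  exact H264.Cl.mono_of_legs hν hα (cleg_of hQ1 c1.leg.base.ph i1 c1.leg.base.fin)
    (cleg_of hQ2 c2.leg.base.ph i2 c2.leg.base.fin) hX

/-- the action of `Sp_4(k)` on the points of the projective space -/
noncomputable def spS (k : Type) [NontriviallyNormedField k] : S4 k →* PG k 4 :=
  (sp k 4).comp (S4 k).subtype

/-- The core statement for `Sp_4(k)`. -/
theorem coreE_sp {k : Type} [NontriviallyNormedField k] [ProperSpace k] [MeasurableSpace k]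
    {μ : Measure k} (hOne : OneStmt k μ) (hCls : ClsStmt k μ) (hXC : XCStmt k)
    (hEx : ∀ [LocallyCompactSpace (S4 k)] [SecondCountableTopology (S4 k)],
      ExStmt k μ (MonoidHom.id (S4 k)) (spS k)) : CoreE (S4 k) := by
  haveI : LocallyCompactSpace (S4 k) := lc_S4
  haveI : SecondCountableTopology (S4 k) := sc_S4
  haveI : NoncompactSpace (S4 k) := nc_S4
  exact coreE_of (E := S4 k) hOne hCls hXC hEx

/-- `Sp_4(k)` of the final statement is `S4 k`. -/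
theorem spT_eq (k : Type) [Field k] : SpT k = S4 k := rfl

/-- **The final statement over `ℝ`.** -/
theorem finalR (h1 : OneStmt ℝ volume) (h2 : ClsStmt ℝ volume) (h3 : XCStmt ℝ)
    (h4 : ∀ [LocallyCompactSpace (S4 ℝ)] [SecondCountableTopology (S4 ℝ)],
      ExStmt ℝ volume (MonoidHom.id (S4 ℝ)) (spS ℝ)) : St.FinalR :=
  finalR_of (coreE_sp h1 h2 h3 h4)

/-- **The final statement for all local fields with `2 ≠ 0`.** -/
theorem final1 (h : ∀ (k : Type) [NontriviallyNormedField k] [ProperSpace k] [MeasurableSpace k]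
    [BorelSpace k] (μ : Measure k) [μ.IsAddHaarMeasure], H933.LocK k → (2 : k) ≠ 0 →
    OneStmt k μ ∧ ClsStmt k μ ∧ XCStmt k ∧
      ∀ [LocallyCompactSpace (S4 k)] [SecondCountableTopology (S4 k)],
        ExStmt k μ (MonoidHom.id (S4 k)) (spS k)) : St.Final1 := by
  refine final1_of fun k _ _ hk h2 => ?_
  letI : MeasurableSpace k := borel k
  haveI : BorelSpace k := ⟨rfl⟩
  obtain ⟨h1, h2, h3, h4⟩ := h k (Measure.addHaar : Measure k) (SN.lk hk) h2
  exact coreE_sp h1 h2 h3 h4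

end Vale.Agent.P092.SP
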