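import Vale.Agent.P092.SP.Ex
import Vale.Agent.P092.H956.SpG5
import Vale.Agent.P092.H416.ClsStmt
import Vale.Agent.P092.H325.SpXs
import Vale.Agent.P092.H684.Psp8
import Vale.Agent.P092.H714.AdmS4

/-!
P092, TEAM P (helper805): the final statements from the first half `OneStmt`.
-/

set_option linter.all false

open scoped InnerProductSpace ENNReal LinearAlgebra.Projectivization
open Filter Topology ContinuousLinearMap MeasureTheory TopologicalSpace Matrix

namespace Vale.Agent.P092.SP

open Vale.Agent.P092.SP4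
open Vale.Agent.P092.RC (PG YY GG y0)
open Vale.Agent.P092.SN (CoreE)
open Vale.Agent.P092.H933 (LeviGap)
open Vale.Agent.P092.H684.Psp (PSp4)

/-- **[P-GAP]** (helper956) -/
theorem gapStmt {k : Type} [NontriviallyNormedField k] [ProperSpace k] (h2 : (2 : k) ≠ 0) :
    GapStmt k := fun w _ => ⟨H956.leviGap_b1 h2 w, H956.leviGap_b2 h2 w⟩

/-- the first half, for all Haar measures -/
def One (k : Type) [NontriviallyNormedField k] [ProperSpace k] : Prop :=
  ∀ [MeasurableSpace k] [BorelSpace k] (μ : Measure k) [μ.IsAddHaarMeasure], OneStmt k μ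

/-- **`CoreE` for every admissible source group.** -/
theorem coreE_adm {k : Type} [NontriviallyNormedField k] [ProperSpace k] (hk : H515.St.LocK k)
    (h2 : (2 : k) ≠ 0) (hOne : One k) {E : Type} [Group E] [TopologicalSpace E]
    [IsTopologicalGroup E] [LocallyCompactSpace E] [SecondCountableTopology E] [T2Space E]
    {ι : S4 k →* E} {a : E →* PG k 4} (h : Adm ι a) : CoreE E := by
  letI : MeasurableSpace k := borel k
  haveI : BorelSpace k := ⟨rfl⟩
  haveI := nc_E h
  exact coreE_of (μ := (Measure.addHaar : Measure k)) (hOne _) (H416.clsStmt _) (H325.xcStmtP k)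
    (exStmt_of (SN.lk hk) h (gapStmt h2))

/-- `Sp_4(k)` -/
theorem coreE_S4 {k : Type} [NontriviallyNormedField k] [ProperSpace k] (hk : H515.St.LocK k)
    (h2 : (2 : k) ≠ 0) (hOne : One k) : CoreE (S4 k) := by
  haveI : LocallyCompactSpace (S4 k) := lc_S4
  haveI : SecondCountableTopology (S4 k) := sc_S4
  exact coreE_adm hk h2 hOne H714.AdmS4.adm_id

/-- `PSp_4(k)` -/
theorem coreE_PSp {k : Type} [NontriviallyNormedField k] [ProperSpace k] (hk : H515.St.LocK k)
    (h2 : (2 : k) ≠ 0) (hOne : One k) : CoreE (PSp4 k) :=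
  coreE_adm hk h2 hOne (H714.AdmS4.adm_quo _ (H684.Psp.scc k))

/-- **`Sp_4(ℝ)`.** -/
theorem finalR_of_one (h : One ℝ) : St.FinalR :=
  finalR_of (coreE_S4 (.real (RingEquiv.refl ℝ) fun _ => rfl) two_ne_zero h)

/-- **`Sp_4(k)`, all local fields with `2 ≠ 0`.** -/
theorem final1_of_one (h : ∀ (k : Type) [NontriviallyNormedField k] [ProperSpace k],
    H515.St.LocK k → (2 : k) ≠ 0 → One k) : St.Final1 :=
  final1_of fun k _ _ hk h2 => coreE_S4 hk h2 (h k hk h2)

end Vale.Agent.P092.SP
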