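import Vale.Agent.P092.SP.Blocks
import Vale.Agent.P092.H820.FlipW
import Vale.Agent.P092.H631.P0Leg
import Vale.Agent.P092.H495.GrTd

/-!
P092, TEAM P (helper142): closed rows of the first half.
-/

set_option linter.all false

open scoped InnerProductSpace ENNReal LinearAlgebra.Projectivization
open Filter Topology ContinuousLinearMap MeasureTheory TopologicalSpace

namespace Vale.Agent.P092.SP

open Vale.Agent.P092.RC (Cm TRN Moore GG PG YY y0)
open Vale.Agent.P092.SP4

variable {k : Type} [NontriviallyNormedField k] [ProperSpace k]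

/-- **[P-FLIP]** (helper820) -/
theorem flipStmt (h2 : (2 : k) ≠ 0) : FlipStmt k := by
  intro K _ _ _ _ Ec F pl ae af hc
  exact H820.FlipW.flip_com h2 Ec F hc.ee hc.ff hc.ef
    (fun c l h f g hn => (pl c l h).inc f g hn) ae (fun l l' _ h _ _ => af l l' h)

/-- **[P-0]** ultrametric (helper631, 495, 828) -/
theorem zeroStmt_td [IsUltrametricDist k] [MeasurableSpace k] (μ : Measure k) :
    ZeroStmt k μ := by
  intro E Γ K _ _ _ _ _ _ w 𝒰 ι a π lam W Ω m q U11 p11 U12 p12 U21 p21 U22 p22 h h1 h2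
  obtain ⟨Ec, F, h3, h4, h5⟩ := H631.P0.straight_td h h1 h2
  exact ⟨Ec, F, h4, h5, h3⟩

/-- **[P-0]** ultrametric, flipped -/
theorem zeroStmt_td' [IsUltrametricDist k] [MeasurableSpace k] (μ : Measure k) :
    ZeroStmt' k μ := by
  intro E Γ K _ _ _ _ _ _ w 𝒰 ι a π lam W Ω m q U11 p11 U12 p12 U21 p21 U22 p22 h h1 h2
  obtain ⟨Ec, F, h3, h4, h5⟩ := H631.P0.flipped_td h h1 h2
  exact ⟨Ec, F, h4, h5, h3⟩

/-- **[P-SYN]** ultrametric (helper677, 495) -/
theorem synStmt_td [IsUltrametricDist k] : SynStmt k := by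
  intro K _ _ _ b l h
  have hI' : IsClosed {p : LL k × YY k 3 | flip on p.1 p.2} :=
    (on_closed (k := k)).preimage (f := fun q : LL k × YY k 3 => (q.2, q.1)) (by fun_prop)
  have h' := pl_flip h
  haveI : TotallyDisconnectedSpace (LL k) := H631.P0.td_LL
  refine ⟨H677.syn_td on_closed (fun y y' n n' hn h1 h2 h3 h4 => ?_) b l h.com h.inc,
    H677.syn_td hI' (fun y y' n n' hn h1 h2 h3 h4 => ?_) l b h'.com h'.inc⟩
  · exact gq_on.uniq' hn h1 h3 h2 h4
  · exact gq_on.uniq n n' y y' hn h1 h2 h3 h4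

end Vale.Agent.P092.SP
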