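import Vale.Agent.P092.SP.Leg1E
import Vale.Agent.P092.SP.Ex
import Vale.Agent.P092.H616.CO
import Vale.Agent.P092.H574.W7

/-!
P092, Team P (helper805), Track C: the first leg of the concrete picture over an admissible source
group of `Sp_4(ℂ)`, with the relations of second order.
-/

set_option linter.all false

open scoped InnerProductSpace ENNReal LinearAlgebra.Projectivization
open Filter Topology ContinuousLinearMap MeasureTheory TopologicalSpace

namespace Vale.Agent.P092.SP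

open Vale.Agent.P092.SP4
open Vale.Agent.P092.RC (PG YY GG y0)
open Vale.Agent.P092.H933 (LeviGap LocK)

/-- **[P-EX] over the complex field, one leg.** -/
theorem halfStmtO_of [MeasurableSpace ℂ] [BorelSpace ℂ] {μ : Measure ℂ} [μ.IsAddHaarMeasure]
    {E : Type} [Group E] [TopologicalSpace E] [IsTopologicalGroup E] [LocallyCompactSpace E]
    [SecondCountableTopology E] [T2Space E] {ι : S4 ℂ →* E} {a : E →* PG ℂ 4} (hk : LocK ℂ)
    (h : Adm ι a) (hg : GapStmt ℂ) : H616.CO.HalfStmtO μ ι a := by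
  intro _ _ Γ _ _ _ _ ν _ hν hΓ hicc Λ _ _ hΛ α hα
  obtain ⟨x, hx0, hx1⟩ := NormedField.exists_norm_lt_one ℂ
  have hx : x ≠ 0 := norm_pos_iff.1 hx0
  have hw : ‖((Units.mk0 x hx : ℂˣ) : ℂ)‖ < 1 := hx1
  have hq : ∀ γ : Γ, ι (Function.surjInv h.sur (γ : E)) = γ := fun γ =>
    Function.surjInv_eq h.sur _
  obtain ⟨U11, p11, U12, p12, U21, p21, U22, p22, hL, hO⟩ := leg₁E (μ := μ) hν hα hk h hw
    Nat.hyperfilter_le_atTop hΛ (H684.Psp.leviGap_proper ι h.cι h.sur (hg _ hw).1)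
    (H684.Psp.leviGap_proper ι h.cι h.sur (hg _ hw).2) hq
  have hcnt : ∀ (r : ℕ) (u v : Fin r → C(YY ℂ 3, ℂ)) (C δ : ℝ), 0 < δ → H616.CH.Sec C u v →
      H616.CH.Far δ u v → H486.Rel.WCnt
        (fun γ : Γ => H899.T.l1 (Function.surjInv h.sur (γ : E)))
        (fun γ : Γ => H899.T.l2 (Function.surjInv h.sur (γ : E)))
        (fun γ : Γ => H899.T.bpt (Function.surjInv h.sur (γ : E)))
        (fun γ : Γ => nm (Function.surjInv h.sur (γ : E))) u v := by
    intro r u v C δ hδ h1 h2 R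
    obtain ⟨C', -, hC'⟩ := H574.W.wcnt hL.base.ph hL.base.ud hδ h1 h2 R
    exact ⟨C', 3, hC'⟩
  exact ⟨Units.mk0 x hx, hyperfilter ℕ, _, fun γ => Function.surjInv h.sur (γ : E),
    ⟨U11, p11, U12, p12, U21, p21, U22, p22, hL,
      fun c r u v C δ hδ h1 h2 => (hO (Fin r) u v (hcnt r u v C δ hδ h1 h2)).1 c,
      fun l r u v C δ hδ h1 h2 => (hO (Fin r) u v (hcnt r u v C δ hδ h1 h2)).2 l⟩,
    inj_lift h hq hicc⟩

end Vale.Agent.P092.SP
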