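import Vale.Agent.P092.SP.One
import Vale.Agent.P092.H306.Pu4
import Vale.Agent.P092.H43.PPrx
import Vale.Agent.P092.H315P.OppD
import Vale.Agent.P092.H283.ZeroR
import Vale.Agent.P092.H336.PullS4
import Vale.Agent.P092.H99.P.Key

/-!
P092, TEAM P (helper142): the first half of Team P from the two counts.
-/

set_option linter.all false

open scoped InnerProductSpace ENNReal LinearAlgebra.Projectivization
open Filter Topology ContinuousLinearMap MeasureTheory TopologicalSpace

namespace Vale.Agent.P092.SP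

open Vale.Agent.P092.RC (Cm TRN Moore GG PG YY y0)
open Vale.Agent.P092.SP4

section

variable {k : Type} [NontriviallyNormedField k] [ProperSpace k] [MeasurableSpace k] [BorelSpace k]
  (μ : Measure k) [IsFiniteMeasureOnCompacts μ] [μ.IsOpenPosMeasure]

/-- **[P-PUR]** (helper306, 43, 53, 315, 789, 673) -/
theorem purStmt : PurStmt k μ := by
  intro E Γ K _ _ _ _ _ _ w 𝒰 ι a π lam W Ω m q U11 p11 U12 p12 U21 p21 U22 p22 h
  exact H306.Pu.pur_of h (H315P.Opp.capStmt1 h.base.ud) (H315P.Opp.capStmt2 h.base.ud)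
    H43.PPrx.opp1_open H43.PPrx.opp2_open (H43.PPrx.prx1 h.base) (H43.PPrx.prx2 h.base)

/-- **[P-K1]** from the count near the wall of points (helper99) -/
theorem key1Stmt (c1 : H99.P.Count1Stmt k) : Key1Stmt k μ := by
  intro E Γ K _ _ _ _ _ _ w 𝒰 ι a π lam W Ω m q Ec F h
  exact H99.P.key1_straight c1 h

/-- **[P-K1]**, flipped, from the count near the wall of lines (helper99) -/
theorem key1Stmt' (c2 : H99.P.Count2Stmt k) : Key1Stmt' k μ := by
  intro E Γ K _ _ _ _ _ _ w 𝒰 ι a π lam W Ω m q Ec F h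
  exact H99.P.key1_flipped c2 h

/-- **[P-K2]** from the count near the wall of lines (helper99) -/
theorem key2Stmt (c2 : H99.P.Count2Stmt k) : Key2Stmt k μ := by
  intro E Γ K _ _ _ _ _ _ w 𝒰 ι a π lam W Ω m q Ec F h
  exact H99.P.key2_straight c2 h

/-- **[P-K2]**, flipped, from the count near the wall of points (helper99) -/
theorem key2Stmt' (c1 : H99.P.Count1Stmt k) : Key2Stmt' k μ := by
  intro E Γ K _ _ _ _ _ _ w 𝒰 ι a π lam W Ω m q Ec F h
  exact H99.P.key2_flipped c1 h

/-- the first half over an ultrametric field, from the two counts -/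
theorem one_ultra [IsUltrametricDist k] (h2 : (2 : k) ≠ 0) (c1 : H99.P.Count1Stmt k)
    (c2 : H99.P.Count2Stmt k) : OneStmt k μ :=
  one_of (purStmt μ) (zeroStmt_td μ) (zeroStmt_td' μ) (key1Stmt μ c1) (key1Stmt' μ c2)
    (key2Stmt μ c2) (key2Stmt' μ c1) synStmt_td (flipStmt h2)

end

/-- **[P-SYN]** over `ℝ` (helper336) -/
theorem synStmt_R : SynStmt ℝ := by
  intro K _ _ _ b l h
  have hτ : ∀ x : ℝ, ‖(algebraMap ℝ ℂ) x‖ = ‖x‖ := fun x => by simp
  exact ⟨H336.synS4_cc hτ b l h.com h.inc, H336.synS4_col hτ b l h.com h.inc⟩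

/-- the first half over `ℝ`, from the two counts -/
theorem one_real (μ : Measure ℝ) [IsFiniteMeasureOnCompacts μ] [μ.IsOpenPosMeasure]
    (c1 : H99.P.Count1Stmt ℝ) (c2 : H99.P.Count2Stmt ℝ) : OneStmt ℝ μ :=
  one_of (purStmt μ) (H283.ZeroR.zeroStmt_R μ) (H283.ZeroR.zeroStmt_R' μ) (key1Stmt μ c1)
    (key1Stmt' μ c2) (key2Stmt μ c2) (key2Stmt' μ c1) synStmt_R (flipStmt two_ne_zero)

end Vale.Agent.P092.SP
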