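import Vale.Agent.P092.SR.St

/-!
P092, Team P (helper805): literal forms of the final statements for lattices in `Sp_4(k)`, `k` a
local field. Only definitions.
-/

open Vale.Agent.P092.H160.St Vale.Agent.P092.H103.St Vale.Agent.P092.H515.St
open Vale.Agent.P092.SR.St Matrix

namespace Vale.Agent.P092.SP.St

/-- The alternating form `x₀ y₃ + x₁ y₂ - x₂ y₁ - x₃ y₀`. -/
def J (k : Type) [Field k] : Matrix (Fin 4) (Fin 4) k :=
  !![0, 0, 0, 1; 0, 0, 1, 0; 0, -1, 0, 0; -1, 0, 0, 0]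

/-- `G = Sp_4(k)`. -/
def IsSp (k : Type) [Field k] (G : Subgroup (SpecialLinearGroup (Fin 4) k)) : Prop :=
  ∀ g, g ∈ G ↔ g.1 * J k * g.1.transpose = J k

/-- `Γ` is an ICC lattice in `Sp_4(k)`. -/
def SpLatticeOver (k : Type) [NontriviallyNormedField k] (Γ : Type) [Group Γ] : Prop :=
  ICC Γ ∧ ∃ (G : Subgroup (SpecialLinearGroup (Fin 4) k)) (i : Γ →* G),
    IsSp k G ∧ Function.Injective i ∧ IsLattice i.range

/-- `Γ` is an ICC lattice in `Sp_4(k)` for some local field `k` of characteristic not two. -/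
def SpLattice (Γ : Type) [Group Γ] : Prop :=
  ICC Γ ∧ ∃ (k : Type) (_ : NontriviallyNormedField k)
    (G : Subgroup (SpecialLinearGroup (Fin 4) k)) (i : Γ →* G),
    ProperSpace k ∧ LocK k ∧ (2 : k) ≠ 0 ∧ IsSp k G ∧ Function.Injective i ∧ IsLattice i.range

/-- Version `k = ℝ`, `t = 1`. -/
def FinalR : Prop := ∀ (Γ : Type) [Group Γ], SpLatticeOver ℝ Γ → Super Γ

/-- Version for all local fields of characteristic not two, `t = 1`. -/
def Final1 : Prop := ∀ (Γ : Type) [Group Γ], SpLattice Γ → Super Γ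

end Vale.Agent.P092.SP.St
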