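import Vale.Agent.P092.SP.Blocks

/-!
P092, TEAM P (helper142): the second joint of the first half: ONE KEY (helper796). Only the key in
which the localiser is a LINE of the target is used; then collinear points of the target side
commute, and `CollStmt`, `CollStmt'` give everything.
-/

set_option linter.all false

open scoped InnerProductSpace ENNReal LinearAlgebra.Projectivization
open Filter Topology ContinuousLinearMap MeasureTheory TopologicalSpace

namespace Vale.Agent.P092.SP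

open Vale.Agent.P092.RC (Cm TRN Moore GG PG YY y0)
open Vale.Agent.P092.SP4

section stmts

variable (k : Type) [NontriviallyNormedField k] [ProperSpace k]

/-- **[P-COLL]** (helper796): a straight leg in which collinear points commute -/
def CollStmt [MeasurableSpace k] (μ : Measure k) : Prop :=
  ∀ {E Γ K : Type} [Group E] [TopologicalSpace E] [Group Γ] [NormedAddCommGroup K]
    [InnerProductSpace ℂ K] [CompleteSpace K] (w : kˣ) (𝒰 : Ultrafilter ℕ) (ι : S4 k →* E)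
    (a : E →* PG k 4) (π : E →* (K →L[ℂ] K)) (lam : Γ →* (K →L[ℂ] K)) (W : Set (K →L[ℂ] K))
    (Ω : K) (m : Set Γ → (K →L[ℂ] K)) (q : Γ → S4 k)
    (Ec : YY k 3 → (C(YY k 3, ℂ) →⋆ₐ[ℂ] (K →L[ℂ] K)))
    (F : LL k → (C(LL k, ℂ) →⋆ₐ[ℂ] (K →L[ℂ] K))),
    LegS μ w 𝒰 ι a π lam W Ω m q Ec F →
    (∀ l c c', on c l → on c' l → ∀ f g, Commute (Ec c' f) (Ec c g)) → Com Ec F

/-- **[P-COLL]**, a flipped leg in which concurrent lines (valued in points) commute -/
def CollStmt' [MeasurableSpace k] (μ : Measure k) : Prop :=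
  ∀ {E Γ K : Type} [Group E] [TopologicalSpace E] [Group Γ] [NormedAddCommGroup K]
    [InnerProductSpace ℂ K] [CompleteSpace K] (w : kˣ) (𝒰 : Ultrafilter ℕ) (ι : S4 k →* E)
    (a : E →* PG k 4) (π : E →* (K →L[ℂ] K)) (lam : Γ →* (K →L[ℂ] K)) (W : Set (K →L[ℂ] K))
    (Ω : K) (m : Set Γ → (K →L[ℂ] K)) (q : Γ → S4 k)
    (Ec : YY k 3 → (C(LL k, ℂ) →⋆ₐ[ℂ] (K →L[ℂ] K)))
    (F : LL k → (C(YY k 3, ℂ) →⋆ₐ[ℂ] (K →L[ℂ] K))),
    LegF μ w 𝒰 ι a π lam W Ω m q Ec F →
    (∀ c l l', on c l → on c l' → ∀ f g, Commute (F l' f) (F l g)) → Com Ec F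

end stmts

variable {k : Type} [NontriviallyNormedField k] [ProperSpace k] [MeasurableSpace k]
  {μ : Measure k}

/-- **the first half of Team P, second form** (one key) -/
theorem one_of' (hP : PurStmt k μ) (h0 : ZeroStmt k μ) (h0' : ZeroStmt' k μ)
    (h1' : Key1Stmt' k μ) (h2 : Key2Stmt k μ) (syn : SynStmt k) (hC : CollStmt k μ)
    (hC' : CollStmt' k μ) (hF : FlipStmt k) : OneStmt k μ := by
  intro E Γ K _ _ _ _ _ _ w 𝒰 ι a π lam W Ω m q h
  obtain ⟨U11, p11, U12, p12, U21, p21, U22, p22, h⟩ := h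
  rcases hP w 𝒰 ι a π lam W Ω m q U11 p11 U12 p12 U21 p21 U22 p22 h with ⟨e1, e2⟩ | ⟨e1, e2⟩
  · obtain ⟨Ec, F, -, -, hl⟩ := h0 w 𝒰 ι a π lam W Ω m q U11 p11 U12 p12 U21 p21 U22 p22 h e1 e2
    refine ⟨Ec, F, hl, hC w 𝒰 ι a π lam W Ω m q Ec F hl fun l c c' hc hc' f g => ?_⟩
    exact col_points gq_on gq_on on_closed hl.pl hl.f.agr
      (fun c l hc => (syn _ _ (hl.pl c l hc)).2) (h2 w 𝒰 ι a π lam W Ω m q Ec F hl) hc hc' f g
  · obtain ⟨Ec, F, -, -, hl⟩ := h0' w 𝒰 ι a π lam W Ω m q U11 p11 U12 p12 U21 p21 U22 p22 h e1 e2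
    have hn : Nontrivial K := ⟨Ω, 0, fun h0 => by
      have := h.base.pic.nΩ
      rw [h0, norm_zero] at this
      exact zero_ne_one this⟩
    have hI' : IsClosed {p : LL k × YY k 3 | flip on p.1 p.2} :=
      (on_closed (k := k)).preimage (f := fun q : LL k × YY k 3 => (q.2, q.1)) (by fun_prop)
    refine (hF Ec F hl.pl hl.e.agr hl.f.agr
      (hC' w 𝒰 ι a π lam W Ω m q Ec F hl fun c l l' hc hc' f g => ?_)).elim
    exact conc_lines gq_on (gq_on (k := k)).dual hI' hl.pl hl.e.agr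
      (fun c l hc => (syn _ _ (pl_flip (hl.pl c l hc))).2)
      (h1' w 𝒰 ι a π lam W Ω m q Ec F hl) hc hc' f g

end Vale.Agent.P092.SP
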