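import Vale.Agent.P092.SP.Defs
import Vale.Agent.P092.H534.Sp.Wall

/-!
P092, Team P (helper805), [P-EX]: the chains of `Sp_4(k)` which start with the two walls and their
inverses (from helper534's `chain_pt`, `chain_ln`).
-/

set_option linter.all false

open Matrix Filter Topology MeasureTheory

namespace Vale.Agent.P092.SP

open Vale.Agent.P092.SP4
open Vale.Agent.P092.H701 (HChain)
open Vale.Agent.P092.H534.SpK (RtG chain_pt chain_ln)
open Vale.Agent.P092.H368.SN (tv tv_coe)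

/-- the chains of the two walls, over a source group `E` -/
structure Chains {k : Type} [NontriviallyNormedField k] {E : Type} [Group E] [TopologicalSpace E]
    [MeasurableSpace E] (ι : S4 k →* E) (w : kˣ) : Prop where
  c1 : ∃ C : HChain E 2, ∀ n, C.b ⟨0, two_pos⟩ n = ι (B1 w) ^ n
  c1' : ∃ C : HChain E 2, ∀ n, C.b ⟨0, two_pos⟩ n = (ι (B1 w))⁻¹ ^ n
  c2 : ∃ C : HChain E 2, ∀ n, C.b ⟨0, two_pos⟩ n = ι (B2 w) ^ n
  c2' : ∃ C : HChain E 2, ∀ n, C.b ⟨0, two_pos⟩ n = (ι (B2 w))⁻¹ ^ n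

variable {k : Type} [NontriviallyNormedField k]

theorem mem_of_val {g h : SpecialLinearGroup (Fin 4) k} (e : g.1 = h.1) (hh : h ∈ S4 k) :
    g ∈ S4 k := by
  rw [mem_S4, e]
  exact mem_S4.1 hh

/-- the root groups of `Sp_4` -/
theorem rt4 : RtG (S4 k) 0 3 1 2 (-1) (-1) 1 where
  aa := by decide
  bb := by decide
  ab := by decide
  ab' := by decide
  ba := by decide
  ba' := by decide
  la s := mem_of_val (h := lg s) (by
    ext i j
    fin_cases i <;> fin_cases j <;> simp [tv_coe, transvection, lg, Matrix.single_apply]) (lg_mem s)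
  la' s := mem_of_val (h := tps (lg s)) (by
    ext i j
    fin_cases i <;> fin_cases j <;>
      simp [tv_coe, transvection, lg, tps, Matrix.single_apply]) (tps_mem (lg_mem s))
  lb s := mem_of_val (h := lg' s) (by
    ext i j
    fin_cases i <;> fin_cases j <;> simp [tv_coe, transvection, lg', Matrix.single_apply])
      (lg'_mem s)
  lb' s := mem_of_val (h := tps (lg' s)) (by
    ext i j
    fin_cases i <;> fin_cases j <;>
      simp [tv_coe, transvection, lg', tps, Matrix.single_apply]) (tps_mem (lg'_mem s))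
  sab s := mem_of_val (h := SP4.sh s) (by
    ext i j
    fin_cases i <;> fin_cases j <;>
      simp [H534.SpK.sh, tv_coe, transvection, SP4.sh, Matrix.single_apply, Matrix.mul_apply,
        Fin.sum_univ_four, Matrix.one_apply]) (sh_mem s)
  sba s := mem_of_val (h := tps (SP4.sh s)) (by
    ext i j
    fin_cases i <;> fin_cases j <;>
      simp [H534.SpK.sh, tv_coe, transvection, SP4.sh, tps, Matrix.single_apply, Matrix.mul_apply,
        Fin.sum_univ_four, Matrix.one_apply]) (tps_mem (sh_mem s))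
  sab' s := mem_of_val (h := sh' s) (by
    ext i j
    fin_cases i <;> fin_cases j <;>
      simp [H534.SpK.sh, tv_coe, transvection, sh', Matrix.single_apply, Matrix.mul_apply,
        Fin.sum_univ_four, Matrix.one_apply]) (sh'_mem s)

/-- **The chains of `Sp_4(k)`.** -/
theorem chains_id [ProperSpace k] [MeasurableSpace (S4 k)] [OpensMeasurableSpace (S4 k)] {w : kˣ}
    (hw : ‖(w : k)‖ < 1) : Chains (MonoidHom.id (S4 k)) w := by
  have h1 : ‖(w : k)‖ < ‖((w⁻¹ : kˣ) : k)‖ := by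
    rw [Units.val_inv_eq_inv_val, norm_inv]
    exact hw.trans ((one_lt_inv₀ (norm_pos_iff.2 w.ne_zero)).2 hw)
  have h2 : 1 < ‖((w⁻¹ : kˣ) : k)‖ := by
    rw [Units.val_inv_eq_inv_val, norm_inv]
    exact (one_lt_inv₀ (norm_pos_iff.2 w.ne_zero)).2 hw
  obtain ⟨c1, c1'⟩ := chain_pt (rt4 (k := k)) (g₀ := B1 w) (g₁ := B2 w)
    (d₀ := ![((w⁻¹ : kˣ) : k), 1, 1, (w : k)])
    (d₁ := ![((w⁻¹ : kˣ) : k), ((w⁻¹ : kˣ) : k), (w : k), (w : k)]) rfl rfl h1 rfl h1
  obtain ⟨c2, c2'⟩ := chain_ln (rt4 (k := k)) (g₀ := B2 w) (g₁ := B1 w)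
    (d₀ := ![((w⁻¹ : kˣ) : k), ((w⁻¹ : kˣ) : k), (w : k), (w : k)])
    (d₁ := ![((w⁻¹ : kˣ) : k), 1, 1, (w : k)]) rfl rfl h1 rfl rfl (by
      change ‖(1 : k)‖ < ‖((w⁻¹ : kˣ) : k)‖
      rw [norm_one]
      exact h2)
  exact ⟨c1, c1', c2, c2'⟩

end Vale.Agent.P092.SP
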