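import Vale.Agent.P092.SP.ExS
import Vale.Agent.P092.H673.P.Prox
import Mathlib.Topology.Algebra.Group.OpenMapping

/-!
P092, Team P (helper805), [P-EX]: a lattice of an admissible source group `E` of `Sp_4(k)`: finite
covolume of the preimage, discreteness, proximality, no invariant states for the lifts.
-/

set_option linter.all false

open Filter Topology MeasureTheory
open scoped LinearAlgebra.Projectivization

namespace Vale.Agent.P092.SP

open Vale.Agent.P092.SP4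
open Vale.Agent.P092.RC (Moore PG YY GG y0)

section cov

variable {G E : Type} [Group G] [TopologicalSpace G] [IsTopologicalGroup G] [SigmaCompactSpace G]
  [Group E] [TopologicalSpace E] [IsTopologicalGroup E] [LocallyCompactSpace E] [T2Space E]
  {ι : G →* E}

/-- the map of the quotients -/
def quoMap (ι : G →* E) (Γ : Subgroup E) : G ⧸ Γ.comap ι → E ⧸ Γ :=
  Quotient.map' ι (by
    intro a b hab
    rw [QuotientGroup.leftRel_apply] at hab ⊢
    rw [← map_inv, ← map_mul]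
    exact hab)

theorem quoMap_mk (Γ : Subgroup E) (g : G) :
    quoMap ι Γ (g : G ⧸ Γ.comap ι) = ((ι g : E) : E ⧸ Γ) := rfl

theorem quoMap_smul (Γ : Subgroup E) (g : G) (x : G ⧸ Γ.comap ι) :
    quoMap ι Γ (g • x) = ι g • quoMap ι Γ x := by
  induction x using QuotientGroup.induction_on with
  | H z =>
    change ((ι (g * z) : E) : E ⧸ Γ) = ((ι g * ι z : E) : E ⧸ Γ)
    rw [map_mul]

theorem quoMap_bij (hs : Function.Surjective ι) (Γ : Subgroup E) :
    Function.Bijective (quoMap ι Γ) := by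
  constructor
  · intro x y h
    induction x using QuotientGroup.induction_on with
    | H a =>
      induction y using QuotientGroup.induction_on with
      | H b =>
        rw [quoMap_mk, quoMap_mk, QuotientGroup.eq] at h
        rw [QuotientGroup.eq, Subgroup.mem_comap, map_mul, map_inv]
        exact h
  · intro y
    induction y using QuotientGroup.induction_on with
    | H e =>
      obtain ⟨g, rfl⟩ := hs e
      exact ⟨(g : G ⧸ Γ.comap ι), rfl⟩

theorem quoMap_cont (hc : Continuous ι) (Γ : Subgroup E) : Continuous (quoMap ι Γ) :=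
  (QuotientGroup.isQuotientMap_mk (Γ.comap ι)).continuous_iff.2
    (QuotientGroup.continuous_mk.comp hc)

theorem quoMap_open (hc : Continuous ι) (hs : Function.Surjective ι) (Γ : Subgroup E) :
    IsOpenMap (quoMap ι Γ) := by
  have h1 : IsOpenMap ι := MonoidHom.isOpenMap_of_sigmaCompact ι hs hc
  intro U hU
  have h2 : IsOpen ((fun g : G => (g : G ⧸ Γ.comap ι)) ⁻¹' U) :=
    hU.preimage QuotientGroup.continuous_mk
  have h3 := QuotientGroup.isOpenMap_coe (N := Γ) _ (h1 _ h2)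
  convert h3 using 1
  ext y
  constructor
  · rintro ⟨x, hx, rfl⟩
    induction x using QuotientGroup.induction_on with
    | H z => exact ⟨ι z, ⟨z, hx, rfl⟩, rfl⟩
  · rintro ⟨_, ⟨z, hz, rfl⟩, rfl⟩
    exact ⟨(z : G ⧸ Γ.comap ι), hz, rfl⟩

/-- **The preimage of a lattice has finite covolume.** -/
theorem covol_comap {Γ : Subgroup E} [MeasurableSpace (E ⧸ Γ)] [BorelSpace (E ⧸ Γ)]
    {ν : Measure (E ⧸ Γ)} [IsProbabilityMeasure ν] (hc : Continuous ι)
    (hs : Function.Surjective ι) (hν : ∀ g : E, ν.map (fun x => g • x) = ν) :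
    H514.NI.Covol (Γ.comap ι) := by
  obtain ⟨e, he⟩ : ∃ e : (G ⧸ Γ.comap ι) ≃ₜ (E ⧸ Γ), ∀ x, e x = quoMap ι Γ x :=
    ⟨(Equiv.ofBijective _ (quoMap_bij hs Γ)).toHomeomorphOfContinuousOpen
      (quoMap_cont hc Γ) (quoMap_open hc hs Γ), fun x => rfl⟩
  unfold H514.NI.Covol
  letI : MeasurableSpace (G ⧸ Γ.comap ι) := borel _
  haveI : BorelSpace (G ⧸ Γ.comap ι) := ⟨rfl⟩
  have hm : Measurable e.symm := e.symm.continuous.measurable
  have hm' : Measurable e := e.continuous.measurable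
  have hmg : ∀ g : E, Measurable fun x : E ⧸ Γ => g • x := fun g =>
    (continuous_const_smul g).measurable
  refine ⟨ν.map e.symm, ?_, ?_, ?_⟩
  · intro h1
    apply IsProbabilityMeasure.ne_zero ν
    rw [← Measure.measure_univ_eq_zero] at h1 ⊢
    rwa [Measure.map_apply hm MeasurableSet.univ, Set.preimage_univ] at h1
  · rw [Measure.map_apply hm MeasurableSet.univ, Set.preimage_univ]
    exact measure_lt_top _ _
  · intro g s hs'
    have hgm : Measurable fun x : G ⧸ Γ.comap ι => g • x := (continuous_const_smul g).measurable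
    rw [Measure.map_apply hm (hgm hs'), Measure.map_apply hm hs']
    have h2 : (e.symm ⁻¹' ((fun x : G ⧸ Γ.comap ι => g • x) ⁻¹' s)) =
        (fun x : E ⧸ Γ => ι g • x) ⁻¹' (e.symm ⁻¹' s) := by
      ext y
      simp only [Set.mem_preimage]
      have h3 : g • e.symm y = e.symm (ι g • y) := by
        apply e.injective
        rw [e.apply_symm_apply, he, quoMap_smul, ← he, e.apply_symm_apply]
      rw [h3]
    rw [h2, ← Measure.map_apply (hmg (ι g)) (hm hs'), hν]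

end cov

section gen

variable {k : Type} [NontriviallyNormedField k] [ProperSpace k] {E : Type} [Group E]
  [TopologicalSpace E] [IsTopologicalGroup E] [LocallyCompactSpace E] [T2Space E]
  {ι : S4 k →* E} {a : E →* PG k 4} {Γ : Subgroup E} {q : Γ → S4 k}

/-- finitely many elements of bounded size -/
theorem fin_lift (h : Adm ι a) [DiscreteTopology Γ] (hq : ∀ γ, ι (q γ) = γ) (C : ℝ) :
    {γ : Γ | nm (q γ) ≤ C}.Finite := by
  have h1 : IsCompact (ι '' {g : S4 k | nm g ≤ C}) := (compact_nm C).image h.cι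
  refine (H790.finite_inter Γ h1).subset fun γ hγ => ?_
  exact ⟨q γ, hγ, hq γ⟩

variable [MeasurableSpace (E ⧸ Γ)] [BorelSpace (E ⧸ Γ)] {ν : Measure (E ⧸ Γ)}
  [IsProbabilityMeasure ν]

/-- the preimage of the lattice in `Sp_4(k)` -/
theorem covol_lift (h : Adm ι a) (hν : ∀ g : E, ν.map (fun x => g • x) = ν) :
    H514.NI.Covol (Γ.comap ι) := by
  haveI := lc_S4 (k := k)
  haveI := sc_S4 (k := k)
  exact covol_comap h.cι h.sur hν

theorem prox1_lift (h : Adm ι a) (hν : ∀ g : E, ν.map (fun x => g • x) = ν)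
    (hq : ∀ γ, ι (q γ) = γ) (z : YY k 3) (D : Set (YY k 3)) (hD : IsCompact D)
    (hDo : ∀ y ∈ D, opp1 y z) (U : Set (YY k 3)) (hU : IsOpen U) (hUn : U.Nonempty) :
    ∃ γ, ∀ y ∈ D, q γ • y ∈ U := by
  haveI := lc_S4 (k := k)
  haveI := sc_S4 (k := k)
  obtain ⟨g, hg, h1⟩ := H673.Px.prox_pt _ (covol_lift h hν) z D hD hDo U hU hUn
  refine ⟨⟨ι g, hg⟩, fun y hy => ?_⟩
  rw [fibP h (g' := g) (hq ⟨ι g, hg⟩)]
  exact h1 y hy

theorem prox2_lift (h : Adm ι a) (hν : ∀ g : E, ν.map (fun x => g • x) = ν)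
    (hq : ∀ γ, ι (q γ) = γ) (z : LL k) (D : Set (LL k)) (hD : IsCompact D)
    (hDo : ∀ y ∈ D, opp2 y z) (U : Set (LL k)) (hU : IsOpen U) (hUn : U.Nonempty) :
    ∃ γ, ∀ y ∈ D, q γ • y ∈ U := by
  haveI := lc_S4 (k := k)
  haveI := sc_S4 (k := k)
  obtain ⟨g, hg, h1⟩ := H673.Px.prox_ln _ (covol_lift h hν) z D hD hDo U hU hUn
  refine ⟨⟨ι g, hg⟩, fun y hy => ?_⟩
  rw [fibL h (g' := g) (hq ⟨ι g, hg⟩)]
  exact h1 y hy

/-- no invariant states, from the statement for subgroups of `Sp_4(k)` -/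
theorem nis_lift1 (h : Adm ι a) (hν : ∀ g : E, ν.map (fun x => g • x) = ν)
    (hq : ∀ γ, ι (q γ) = γ)
    (nis : ∀ Γ' : Subgroup (S4 k), H514.NI.Covol Γ' → ∀ φ : C(YY k 3, ℂ) →ₗ[ℂ] ℂ,
      (∀ f, 0 ≤ (φ (star f * f)).re) → φ 1 = 1 →
      (∀ γ ∈ Γ', ∀ f f' : C(YY k 3, ℂ), (∀ x, f' (γ • x) = f x) → φ f' = φ f) → False)
    (φ : C(YY k 3, ℂ) →ₗ[ℂ] ℂ) (h1 : ∀ f, 0 ≤ (φ (star f * f)).re) (h2 : φ 1 = 1)
    (h3 : ∀ γ, ∀ f f' : C(YY k 3, ℂ), (∀ x, f' (q γ • x) = f x) → φ f' = φ f) : False := by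
  refine nis _ (covol_lift h hν) φ h1 h2 fun g hg f f' hf => ?_
  refine h3 ⟨ι g, hg⟩ f f' fun x => ?_
  rw [fibP h (g' := g) (hq ⟨ι g, hg⟩)]
  exact hf x

theorem nis_lift2 (h : Adm ι a) (hν : ∀ g : E, ν.map (fun x => g • x) = ν)
    (hq : ∀ γ, ι (q γ) = γ)
    (nis : ∀ Γ' : Subgroup (S4 k), H514.NI.Covol Γ' → ∀ φ : C(LL k, ℂ) →ₗ[ℂ] ℂ,
      (∀ f, 0 ≤ (φ (star f * f)).re) → φ 1 = 1 →
      (∀ γ ∈ Γ', ∀ f f' : C(LL k, ℂ), (∀ x, f' (γ • x) = f x) → φ f' = φ f) → False)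
    (φ : C(LL k, ℂ) →ₗ[ℂ] ℂ) (h1 : ∀ f, 0 ≤ (φ (star f * f)).re) (h2 : φ 1 = 1)
    (h3 : ∀ γ, ∀ f f' : C(LL k, ℂ), (∀ x, f' (q γ • x) = f x) → φ f' = φ f) : False := by
  refine nis _ (covol_lift h hν) φ h1 h2 fun g hg f f' hf => ?_
  refine h3 ⟨ι g, hg⟩ f f' fun x => ?_
  rw [fibL h (g' := g) (hq ⟨ι g, hg⟩)]
  exact hf x

end gen

end Vale.Agent.P092.SP
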