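import Vale.Agent.P092.SP.ExG
import Vale.Agent.P092.H899.P1
import Vale.Agent.P092.H725.SN.Nrm

/-!
P092, Team P (helper805), [P-EX]: the conjugates of the long root group are Moore sets of the source
and are contracted by both walls (input of (I1)).
-/

set_option linter.all false

open scoped InnerProductSpace ENNReal LinearAlgebra.Projectivization
open Filter Topology

namespace Vale.Agent.P092.SP

open Vale.Agent.P092.RC (Moore PG YY GG y0)
open Vale.Agent.P092.SP4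

section incsrc

variable {k : Type} [NontriviallyNormedField k] [ProperSpace k] {E : Type} [Group E]
  [TopologicalSpace E] {ι : S4 k →* E} {a : E →* PG k 4}

theorem nm_mul4 (g h : S4 k) : nm (g * h) ≤ 4 * (nm g * nm h) := by
  refine (pi_norm_le_iff_of_nonneg (by
    have := norm_nonneg (fun i j => g.1.1 i j : Fin 4 → Fin 4 → k)
    have := norm_nonneg (fun i j => h.1.1 i j : Fin 4 → Fin 4 → k)
    change 0 ≤ 4 * (‖(fun i j => g.1.1 i j : Fin 4 → Fin 4 → k)‖ *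
      ‖(fun i j => h.1.1 i j : Fin 4 → Fin 4 → k)‖)
    positivity)).2 fun i => ?_
  refine (pi_norm_le_iff_of_nonneg (by
    have := norm_nonneg (fun i j => g.1.1 i j : Fin 4 → Fin 4 → k)
    have := norm_nonneg (fun i j => h.1.1 i j : Fin 4 → Fin 4 → k)
    change 0 ≤ 4 * (‖(fun i j => g.1.1 i j : Fin 4 → Fin 4 → k)‖ *
      ‖(fun i j => h.1.1 i j : Fin 4 → Fin 4 → k)‖)
    positivity)).2 fun j => ?_
  change ‖(g.1.1 * h.1.1) i j‖ ≤ _
  rw [Matrix.mul_apply]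
  refine (norm_sum_le _ _).trans ?_
  have h1 : ∀ l ∈ (Finset.univ : Finset (Fin 4)), ‖g.1.1 i l * h.1.1 l j‖ ≤ nm g * nm h := by
    intro l _
    rw [norm_mul]
    exact mul_le_mul (le_nm g i l) (le_nm h l j) (norm_nonneg _)
      ((norm_nonneg _).trans (le_nm g i l))
  refine (Finset.sum_le_card_nsmul _ _ _ h1).trans ?_
  rw [Finset.card_univ, Fintype.card_fin, nsmul_eq_mul]
  norm_num

theorem nm_pos4 (g : S4 k) : 0 < nm g := by
  have h0 : 0 ≤ nm g := (norm_nonneg (g.1.1 0 0)).trans (le_nm g 0 0)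
  refine lt_of_le_of_ne h0 fun h => ?_
  have h1 : ∀ i j, g.1.1 i j = 0 := fun i j => by
    have := le_nm g i j
    rw [← h] at this
    exact norm_le_zero_iff.1 this
  have h2 : g.1.1.det = 0 := by
    rw [show g.1.1 = 0 from by ext i j; exact h1 i j]
    exact Matrix.det_zero
  rw [g.1.2] at h2
  exact one_ne_zero h2

/-- conjugates of the long root group are unbounded -/
theorem unb_Lg (g : S4 k) (C : ℝ) : ∃ s : k, C ≤ nm (g * Lg s * g⁻¹) := by
  obtain ⟨s, hs⟩ := NormedField.exists_lt_norm k (16 * nm g⁻¹ * nm g * max C 0)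
  refine ⟨s, ?_⟩
  have h1 : ‖s‖ ≤ nm (Lg s) := le_nm (Lg s) 0 3
  have h2 : Lg s = g⁻¹ * (g * Lg s * g⁻¹) * g := by group
  have h3 : nm (Lg s) ≤ 4 * ((4 * (nm g⁻¹ * nm (g * Lg s * g⁻¹))) * nm g) := by
    conv_lhs => rw [h2]
    refine (nm_mul4 _ _).trans ?_
    have := nm_mul4 g⁻¹ (g * Lg s * g⁻¹)
    have := (nm_pos4 g).le
    gcongr
  have h4 : 16 * nm g⁻¹ * nm g * max C 0 < 16 * nm g⁻¹ * nm g * nm (g * Lg s * g⁻¹) := by
    refine hs.trans_le (h1.trans (h3.trans (le_of_eq ?_)))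
    ring
  have h5 : 0 < 16 * nm g⁻¹ * nm g := by
    have := nm_pos4 g
    have := nm_pos4 g⁻¹
    positivity
  exact (le_max_left C 0).trans (lt_of_mul_lt_mul_left h4 h5.le).le

/-- the walls contract the long root group -/
theorem contr_Lg {b : S4 k} {d : Fin 4 → k} {w : kˣ} (hw : ‖(w : k)‖ < 1) (hd : ∀ i, d i ≠ 0)
    (hb : b.1.1 = Matrix.diagonal d) (h0 : d 0 = ((w⁻¹ : kˣ) : k)) (h3 : d 3 = w) (s : k) :
    Tendsto (fun N : ℕ => (b ^ N)⁻¹ * Lg s * b ^ N) atTop (𝓝 1) := by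
  refine H899.P.tendsto_S4 fun i j => ?_
  simp only [H899.P.conj_entry hd hb]
  by_cases hij : i = 0 ∧ j = 3
  · obtain ⟨rfl, rfl⟩ := hij
    have e1 : (Lg s).1.1 0 3 = s := rfl
    have e2 : (1 : S4 k).1.1 0 3 = 0 := rfl
    rw [e1, e2, h0, h3]
    have h4 : Tendsto (fun N : ℕ => s * ((w : k) * w) ^ N) atTop (𝓝 (s * 0)) := by
      refine Tendsto.const_mul _ (tendsto_pow_atTop_nhds_zero_of_norm_lt_one ?_)
      rw [norm_mul]
      have := norm_nonneg (w : k)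
      nlinarith
    rw [mul_zero] at h4
    refine h4.congr fun N => ?_
    rw [mul_pow, Units.val_inv_eq_inv_val, inv_pow, inv_inv]
    ring
  · have h5 : (Lg s).1.1 i j = (1 : S4 k).1.1 i j := by
      change (!![1, 0, 0, s; 0, 1, 0, 0; 0, 0, 1, 0; 0, 0, 0, 1] : Matrix (Fin 4) (Fin 4) k) i j =
        (1 : Matrix (Fin 4) (Fin 4) k) i j
      fin_cases i <;> fin_cases j <;> simp at hij ⊢
    have h6 : ∀ N : ℕ, (d i ^ N)⁻¹ * (Lg s).1.1 i j * d j ^ N = (1 : S4 k).1.1 i j := by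
      intro N
      rw [h5]
      change (d i ^ N)⁻¹ * (1 : Matrix (Fin 4) (Fin 4) k) i j * d j ^ N =
        (1 : Matrix (Fin 4) (Fin 4) k) i j
      by_cases h7 : i = j
      · subst h7
        rw [Matrix.one_apply_eq, mul_one, inv_mul_cancel₀ (pow_ne_zero N (hd i))]
      · rw [Matrix.one_apply_ne h7, mul_zero, zero_mul]
    simp only [h6]
    exact tendsto_const_nhds

theorem contr_Lg1 {w : kˣ} (hw : ‖(w : k)‖ < 1) (s : k) :
    Tendsto (fun N : ℕ => (B1 w ^ N)⁻¹ * Lg s * B1 w ^ N) atTop (𝓝 1) :=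
  contr_Lg hw (H899.P.d1_ne w) (H899.P.B1_diag w) rfl rfl s

theorem contr_Lg2 {w : kˣ} (hw : ‖(w : k)‖ < 1) (s : k) :
    Tendsto (fun N : ℕ => (B2 w ^ N)⁻¹ * Lg s * B2 w ^ N) atTop (𝓝 1) :=
  contr_Lg hw (H899.P.d2_ne w) (H899.P.B2_diag w) rfl rfl s

/-- the conjugate of the long root group, in `E` -/
def SLg (ι : S4 k →* E) (g : S4 k) : Set E := ι '' {n : S4 k | ∃ s, n = g * Lg s * g⁻¹}

theorem moore_SLg (h : Adm ι a) (g : S4 k) : Moore (SLg ι g) :=
  h.moore _ fun C => by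
    obtain ⟨s, hs⟩ := unb_Lg g C
    exact ⟨_, ⟨s, rfl⟩, hs⟩

theorem contr_SLg (h : Adm ι a) (g : S4 k) {b : S4 k}
    (hb : ∀ s, Tendsto (fun N : ℕ => (b ^ N)⁻¹ * Lg s * b ^ N) atTop (𝓝 1)) :
    ∀ n ∈ SLg ι g,
      Tendsto (fun N : ℕ => (ι b ^ N)⁻¹ * ((ι g)⁻¹ * n * ι g) * ι b ^ N) atTop (𝓝 1) := by
  rintro _ ⟨n, ⟨s, rfl⟩, rfl⟩
  have h1 := (h.cι.tendsto 1).comp (hb s)
  rw [map_one] at h1
  refine h1.congr fun N => ?_
  simp only [Function.comp_apply, map_mul, map_inv, map_pow]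
  group

end incsrc

end Vale.Agent.P092.SP
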