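import Vale.Agent.P092.SP.ExG
import Vale.Agent.P092.H71.P.SizeSp
import Vale.Agent.P092.H370.Sp4d
import Vale.Agent.P092.H899.T4
import Vale.Agent.P092.H805.RowN

/-!
P092, Team P (helper805), [P-EX]: the base record `PB` of the first leg of the concrete picture over
an admissible source group `E` of `Sp_4(k)`.
-/

set_option linter.all false

open scoped InnerProductSpace ENNReal LinearAlgebra.Projectivization
open Filter Topology ContinuousLinearMap MeasureTheory TopologicalSpace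

namespace Vale.Agent.P092.SP

open Vale.Agent.P092.SR Vale.Agent.P092.H160
open Vale.Agent.P092.RC (Moore PG YY GG y0 KK pic lam₁ lam₂ XX Om Pic)
open Vale.Agent.P092.SP4
open Vale.Agent.P092.H103 (mS₁ ms₁ uc₁)
open Vale.Agent.P092.H933 (LeviGap)

section pb

variable {k : Type} [NontriviallyNormedField k] [ProperSpace k] [MeasurableSpace k] [BorelSpace k]
  {μ : Measure k} [μ.IsAddHaarMeasure]
  {E : Type} [Group E] [TopologicalSpace E] [IsTopologicalGroup E] [LocallyCompactSpace E]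
  [SecondCountableTopology E] [T2Space E] [MeasurableSpace E] [BorelSpace E]
  {ι : S4 k →* E} {a : E →* PG k 4}
  {Γ : Subgroup E} [DiscreteTopology Γ] [Countable Γ] [MeasurableSpace (E ⧸ Γ)]
  [BorelSpace (E ⧸ Γ)] {ν : Measure (E ⧸ Γ)} [IsProbabilityMeasure ν]
  (hν : ∀ g : E, ν.map (fun x => g • x) = ν)
  {Λ : Type} [Group Λ] [Countable Λ] {α : Γ →* (Ell2 Λ →L[ℂ] Ell2 Λ)} (hα : Frame α)

theorem nis1_sub (Γ' : Subgroup (S4 k)) (hΓ : H514.NI.Covol Γ') (φ : C(YY k 3, ℂ) →ₗ[ℂ] ℂ)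
    (h1 : ∀ f, 0 ≤ (φ (star f * f)).re) (h2 : φ 1 = 1)
    (h3 : ∀ γ ∈ Γ', ∀ f f' : C(YY k 3, ℂ), (∀ x, f' (γ • x) = f x) → φ f' = φ f) : False :=
  SP4.nis1_S4 hΓ φ h1 h2 fun γ f f' hf => h3 γ.1 γ.2 f f' hf

theorem nis2_sub (Γ' : Subgroup (S4 k)) (hΓ : H514.NI.Covol Γ') (φ : C(LL k, ℂ) →ₗ[ℂ] ℂ)
    (h1 : ∀ f, 0 ≤ (φ (star f * f)).re) (h2 : φ 1 = 1)
    (h3 : ∀ γ ∈ Γ', ∀ f f' : C(LL k, ℂ), (∀ x, f' (γ • x) = f x) → φ f' = φ f) : False :=
  SP4.nis2_S4 hΓ φ h1 h2 fun γ f f' hf => h3 γ.1 γ.2 f f' hf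

/-- **The base record of the first leg.** -/
theorem pb₁ (h : Adm ι a) {w : kˣ} (hw : ‖(w : k)‖ < 1) {𝒰 : Ultrafilter ℕ}
    (h𝒰 : (𝒰 : Filter ℕ) ≤ atTop)
    (hΛ : ∀ g : Λ, g ≠ 1 → Set.Infinite {y : Λ | ∃ h, y = h * g * h⁻¹})
    (g1 : LeviGap (ι (B1 w))) (g2 : LeviGap (ι (B2 w))) {q : Γ → S4 k} (hq : ∀ γ, ι (q γ) = γ) :
    PB μ w 𝒰 ι a (pic hν hα) (lam₁ ν α) (XX ν Λ ∪ Set.range (lam₂ ν α)) (Om ν Λ) (mS₁ ν hα) q := by
  haveI := nc_E h
  have hph := ph_lift h hq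
  have hfin := fin_lift h hq
  have ho := H71.P.pbo₁ (μ := μ) hν hα hΛ hph h hw g1 g2
  exact
    { adm := h
      hw := hw
      h𝒰 := h𝒰
      pic := H805.RowN.picE hν hα hΛ
      ms := ho.ms
      uc := ho.uc
      ph := hph
      fin := hfin
      ud := H899.T.ud_of_fin hph hfin
      orb1 := ho.orb1
      orb1' := ho.orb1'
      orb2 := ho.orb2
      orb2' := ho.orb2'
      size1 := ho.size1
      size2 := ho.size2
      prox1 := prox1_lift h hν hq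
      prox2 := prox2_lift h hν hq
      nis1 := nis_lift1 h hν hq nis1_sub
      nis2 := nis_lift2 h hν hq nis2_sub }

end pb

end Vale.Agent.P092.SP
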