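import Vale.Agent.P092.SP.ExP
import Vale.Agent.P092.H534.Sp.S4
import Vale.Agent.P092.H494.PAgr
import Vale.Agent.P092.H486.EngJ
import Vale.Agent.P092.H899.P1
import Vale.Agent.P092.H370.Sp4b
import Vale.Agent.P092.SP.ExI
import Vale.Agent.P092.SP.Flip
import Vale.Agent.P092.H923.PI5

/-!
P092, Team P (helper805), [P-EX]: the four families of the first leg of the concrete picture over an
admissible source group `E` of `Sp_4(k)`.
-/

set_option linter.all false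

open scoped InnerProductSpace ENNReal LinearAlgebra.Projectivization
open Filter Topology ContinuousLinearMap MeasureTheory TopologicalSpace

namespace Vale.Agent.P092.SP

open Vale.Agent.P092.SR Vale.Agent.P092.H160
open Vale.Agent.P092.RC (Cm Moore PG YY GG y0 KK pic lam₁ lam₂ XX Om Pic)
open Vale.Agent.P092.SP4
open Vale.Agent.P092.H103 (mS₁ ms₁ uc₁)
open Vale.Agent.P092.H933 (LeviGap LocK)
open Vale.Agent.P092.H486.Eng (UFamE ufam sum_one GeoU)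
open Vale.Agent.P092.H859.CL (st BB FF pw Esc Slow Leg)
open Vale.Agent.P092.H76.Pur (NIS Cov)
open Vale.Agent.P092.H899.T (l1 l2 bpt bln)
open Vale.Agent.P092.H805.Row (mpE)
open Vale.Agent.P092.H805.RowN (Bd Bf msE)

section fam

variable {k : Type} [NontriviallyNormedField k] [ProperSpace k] {E Γ K : Type} [Group E]
  [TopologicalSpace E] [Group Γ] [NormedAddCommGroup K] [InnerProductSpace ℂ K] [CompleteSpace K]
  {ι : S4 k →* E} {π : E →* (K →L[ℂ] K)} {lam : Γ →* (K →L[ℂ] K)} {W : Set (K →L[ℂ] K)} {Ω : K}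
  {mp : (Γ → ℝ) → (K →L[ℂ] K)} {q : Γ → S4 k} {𝒰 : Ultrafilter ℕ}
  {X Y : Type} [MulAction (S4 k) X] [MulAction E X] [TopologicalSpace Y] [CompactSpace Y]
  [MulAction (S4 k) Y] [ContinuousConstSMul (S4 k) Y] [MulAction Γ Y]

/-- a family of the engine in the letters of `SP/Defs` -/
theorem ufam_of (hX : ∀ (g : S4 k) (x : X), ι g • x = g • x)
    (hY : ∀ (γ : Γ) (y : Y), γ • y = q γ • y) (hs : Function.Surjective ι) (hp : Pic π lam W Ω)
    {B : S4 k} {z0 : X} {U : X → (C(Y, ℂ) →ₗ[ℂ] (K →L[ℂ] K))} {p : ℝ} {G1 G2 : Γ → ℝ}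
    {bp : Γ → Y} {NA : ℝ → ℝ → Set Y → Set Γ}
    (hU : UFamE mp π lam W (ι B) G1 G2 bp 𝒰 NA z0 U p) (hNI : NIS fun γ (y : Y) => q γ • y)
    (hS : ∀ v v' : X, Moore (ι '' {h : S4 k | h • v = v ∧ h • v' = v'}))
    (hgen : ∀ v v' : X, v ≠ v' →
      Subgroup.closure ({h : S4 k | h • v = v} ∪ {h : S4 k | h • v' = v'}) = ⊤) :
    UFam 𝒰 B z0 ι π lam W (st mp) q NA U p where
  ul := hU.ul
  cm := hU.cm
  cov γ v f := hU.cov γ v f _ fun y => by
    rw [hY]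
    change f ((q γ)⁻¹ • q γ • y) = f y
    rw [inv_smul_smul]
  pcov g v f := by
    rw [← hX]
    exact hU.pcov (ι g) v f
  dom g u A hA hu ζ ε hε := by
    obtain ⟨R, hR⟩ := hU.dom (ι g) u A hA hu ζ ε hε
    refine ⟨R, fun T hT => ?_⟩
    filter_upwards [hR T hT] with N hN
    have e : ι (g * B ^ N * g⁻¹) = ι g * ι B ^ N * (ι g)⁻¹ := by
      rw [map_mul, map_mul, map_inv, map_pow]
    rw [← hX, e]
    exact hN
  agr hp0 v v' hne := H494.PAg.agr_fam hp ι hs hU.ul hp0 hU.cm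
    (H494.PAg.hact_of_act q) hNI
    (fun v γ f f' hf => hU.cov γ v f f' fun y => by rw [hY]; exact hf y)
    (fun h v f => by rw [← hX]; exact hU.pcov (ι h) v f) (hS v v') (hgen v v' hne)

end fam

section src

variable {k : Type} [NontriviallyNormedField k] [ProperSpace k] {E : Type} [Group E]
  [TopologicalSpace E] {ι : S4 k →* E} {a : E →* PG k 4}

theorem moore_of' (h : Adm ι a) {p : S4 k → Prop}
    (hu : ∀ C : ℝ, ∃ g : S4 k, p g ∧ C < ‖(fun i j => g.1.1 i j : Fin 4 → Fin 4 → k)‖) :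
    Moore (ι '' {g | p g}) :=
  h.moore {g | p g} fun C => by
    obtain ⟨g, hg, hC⟩ := hu C
    exact ⟨g, hg, hC.le⟩

theorem moore_pp' (h : Adm ι a) (x y : YY k 3) :
    Moore (ι '' {g : S4 k | g • x = x ∧ g • y = y}) :=
  moore_of' h (H714.S4M.unb_pp x y)

theorem moore_ll' (h : Adm ι a) (x y : LL k) :
    Moore (ι '' {g : S4 k | g • x = x ∧ g • y = y}) :=
  moore_of' h (H714.S4M.unb_ll x y)

theorem gen_pp' {x y : YY k 3} (hne : x ≠ y) :
    Subgroup.closure ({g : S4 k | g • x = x} ∪ {g | g • y = y}) = ⊤ :=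
  H714.S4M.gen_pp hne (fun g hg => Subgroup.subset_closure (Or.inl hg))
    (fun g hg => Subgroup.subset_closure (Or.inr hg))

theorem gen_ll' {x y : LL k} (hne : x ≠ y) :
    Subgroup.closure ({g : S4 k | g • x = x} ∪ {g | g • y = y}) = ⊤ :=
  H714.S4M.gen_ll hne (fun g hg => Subgroup.subset_closure (Or.inl hg))
    (fun g hg => Subgroup.subset_closure (Or.inr hg))

end src

section leg

variable {k : Type} [NontriviallyNormedField k] [ProperSpace k] [MeasurableSpace k] [BorelSpace k]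
  {μ : Measure k} [μ.IsAddHaarMeasure]
  {E : Type} [Group E] [TopologicalSpace E] [IsTopologicalGroup E] [LocallyCompactSpace E]
  [SecondCountableTopology E] [T2Space E] [MeasurableSpace E] [BorelSpace E]
  {ι : S4 k →* E} {a : E →* PG k 4}
  {Γ : Subgroup E} [DiscreteTopology Γ] [Countable Γ] [MeasurableSpace (E ⧸ Γ)]
  [BorelSpace (E ⧸ Γ)] {ν : Measure (E ⧸ Γ)} [IsProbabilityMeasure ν]
  (hν : ∀ g : E, ν.map (fun x => g • x) = ν)
  {Λ : Type} [Group Λ] [Countable Λ] {α : Γ →* (Ell2 Λ →L[ℂ] Ell2 Λ)} (hα : Frame α)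

theorem hst1 (h : Adm ι a) {w : kˣ} (hw : ‖(w : k)‖ < 1) :
    letI := actP a
    ∀ e : E, e • (y0 : YY k 3) = y0 → ∃ v n : E, e = v * n ∧ v * ι (B1 w) = ι (B1 w) * v ∧
      Tendsto (fun N : ℕ => (ι (B1 w) ^ N)⁻¹ * n * ι (B1 w) ^ N) atTop (𝓝 1) := by
  letI := actP a
  intro e he
  obtain ⟨g, rfl⟩ := h.sur e
  rw [actP_ι h] at he
  exact H899.P.map_par h.cι (H899.P.stab_y0 hw he)

theorem hst2 (h : Adm ι a) {w : kˣ} (hw : ‖(w : k)‖ < 1) :
    letI := actL h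
    ∀ e : E, e • (l0 : LL k) = l0 → ∃ v n : E, e = v * n ∧ v * ι (B2 w) = ι (B2 w) * v ∧
      Tendsto (fun N : ℕ => (ι (B2 w) ^ N)⁻¹ * n * ι (B2 w) ^ N) atTop (𝓝 1) := by
  letI := actL h
  intro e he
  obtain ⟨g, rfl⟩ := h.sur e
  rw [actL_ι h] at he
  exact H899.P.map_par h.cι (H899.P.stab_l0 hw he)

/-- **One leg**: the first leg of the concrete picture over `E`. -/
theorem leg₁ (hk : LocK k) (h : Adm ι a) {w : kˣ} (hw : ‖(w : k)‖ < 1) {𝒰 : Ultrafilter ℕ}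
    (h𝒰 : (𝒰 : Filter ℕ) ≤ atTop)
    (hΛ : ∀ g : Λ, g ≠ 1 → Set.Infinite {y : Λ | ∃ h, y = h * g * h⁻¹})
    (g1 : LeviGap (ι (B1 w))) (g2 : LeviGap (ι (B2 w))) {q : Γ → S4 k} (hq : ∀ γ, ι (q γ) = γ) :
    HasLeg μ w 𝒰 ι a (pic hν hα) (lam₁ ν α) (XX ν Λ ∪ Set.range (lam₂ ν α)) (Om ν Λ)
      (mS₁ ν hα) q := by
  haveI := nc_E h
  have hb : PB μ w 𝒰 ι a (pic hν hα) (lam₁ ν α) (XX ν Λ ∪ Set.range (lam₂ ν α)) (Om ν Λ)
      (mS₁ ν hα) q := pb₁ hν hα h hw h𝒰 hΛ g1 g2 hq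
  have hph := hb.ph
  have hfin := hb.fin
  have hp := hb.pic
  have est : st (mpE ν hα) = mS₁ ν hα := H805.RowN.st_eq hα
  have hms : SD.Ms (lam₁ ν α) (XX ν Λ ∪ Set.range (lam₂ ν α)) (Om ν Λ) (st (mpE ν hα)) := by
    rw [est]; exact hb.ms
  have hL : Leg (mpE ν hα) (fun g => pic hν hα g) (fun γ => lam₁ ν α γ)
      (XX ν Λ ∪ Set.range (lam₂ ν α)) :=
    H76.Dicho.leg_of_pic hp (H805.RowN.mcovE hν hα) (H805.RowN.mWE hν hα)
  have s11 := H534.SpK.cn_of (H534.SpK.sysB1 hν hα h hk hw hph hfin)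
  have s12 := H534.SpK.cn_of (H534.SpK.sysB1' hν hα h hk hw hph hfin)
  have s21 := H534.SpK.cn_of (H534.SpK.sysB2 hν hα h hk hw hph hfin)
  have s22 := H534.SpK.cn_of (H534.SpK.sysB2' hν hα h hk hw hph hfin)
  have e1 := H805.RowN.escE' hν hα (coc1 h hw)
  have e2 := H805.RowN.escE' hν hα (coc2 h hw)
  have hS := H805.RowN.slowE hν hα
  have hloc := H805.RowN.locE hν hα
  have f12 : ∀ r, (FF (fun γ => l1 (q γ)) (fun γ => l2 (q γ)) r).Finite :=
    fun r => H899.T.fin_l hfin r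
  have f21 : ∀ r, (FF (fun γ => l2 (q γ)) (fun γ => l1 (q γ)) r).Finite :=
    fun r => (H899.T.fin_l hfin r).subset fun γ hγ => ⟨hγ.2, hγ.1⟩
  -- the four families
  letI aP : MulAction E (YY k 3) := actP a
  letI aL : MulAction E (LL k) := actL h
  letI gP : MulAction Γ (YY k 3) := H899.T.actP hph
  letI gL : MulAction Γ (LL k) := H899.T.actL hph
  have t1 : ∀ z : YY k 3, ∃ g : E, g • (y0 : YY k 3) = z := fun z => by
    obtain ⟨g, hg⟩ := trans_pt (y0 : YY k 3) z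
    exact ⟨ι g, (actP_ι h g _).trans hg⟩
  have t2 : ∀ z : LL k, ∃ g : E, g • (l0 : LL k) = z := fun z => by
    obtain ⟨g, hg⟩ := trans_ln (l0 : LL k) z
    exact ⟨ι g, (actL_ι h g _).trans hg⟩
  obtain ⟨U11, p11, -, -, F11⟩ := ufam (Y := YY k 3) (Z := YY k 3) (z0 := y0) h𝒰 hp (moore_p h y0)
    s11 hL (H899.T.geoU_pt hph hfin) hS hloc e1 (H899.T.domCut_pt q) t1 (hst1 h hw)
  obtain ⟨U12, p12, -, -, F12⟩ := ufam (Y := LL k) (Z := YY k 3) (z0 := y0) h𝒰 hp (moore_p h y0)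
    s12 hL (H899.T.geoU_ln hph hfin) hS hloc e1 (H899.T.domCut_ln q) t1 (hst1 h hw)
  obtain ⟨U21, p21, -, -, F21⟩ := ufam (Y := YY k 3) (Z := LL k) (z0 := l0) h𝒰 hp (moore_l h l0)
    s21 hL (H899.T.geoU_pt hph hfin) hS hloc e2 (H899.T.domCut_pt q) t2 (hst2 h hw)
  obtain ⟨U22, p22, -, -, F22⟩ := ufam (Y := LL k) (Z := LL k) (z0 := l0) h𝒰 hp (moore_l h l0)
    s22 hL (H899.T.geoU_ln hph hfin) hS hloc e2 (H899.T.domCut_ln q) t2 (hst2 h hw)
  have x1 : ∀ (g : S4 k) (x : YY k 3), ι g • x = g • x := actP_ι h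
  have x2 : ∀ (g : S4 k) (x : LL k), ι g • x = g • x := actL_ι h
  have m1 : ∀ v v' : YY k 3, Moore (ι '' {g : S4 k | g • v = v ∧ g • v' = v'}) := moore_pp' h
  have m2' : ∀ v v' : LL k, Moore (ι '' {g : S4 k | g • v = v ∧ g • v' = v'}) := moore_ll' h
  refine ⟨U11, p11, U12, p12, U21, p21, U22, p22,
    { base := hb
      u11 := ?_
      u12 := ?_
      u21 := ?_
      u22 := ?_
      s1 := sum_one h𝒰 hp s11 f12 e1 F11 F12
      s2 := sum_one h𝒰 hp s21 f12 e2 F21 F22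
      i11 := ?_
      i12 := ?_ }⟩
  · rw [← est]
    exact ufam_of (q := q) x1 (fun _ _ => rfl) h.sur hp F11 hb.nis1 m1 fun v v' hne => gen_pp' hne
  · rw [← est]
    exact ufam_of (q := q) x1 (fun _ _ => rfl) h.sur hp F12 hb.nis2 m1 fun v v' hne => gen_pp' hne
  · rw [← est]
    exact ufam_of (q := q) x2 (fun _ _ => rfl) h.sur hp F21 hb.nis1 m2' fun v v' hne => gen_ll' hne
  · rw [← est]
    exact ufam_of (q := q) x2 (fun _ _ => rfl) h.sur hp F22 hb.nis2 m2' fun v v' hne => gen_ll' hne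
  · intro c l hcl f g hfg
    obtain ⟨u, hu1, hu2⟩ := trans_flag (on_y0_l0 (k := k)) hcl
    have hov := H923.PI.ovl12 hph hb.ud (isClosed_tsupport f) (isClosed_tsupport g) hfg
    have hI := H486.Eng.ufam_inc h𝒰 h𝒰 hp hms s11 s22 hL hS hS e1 e2 f12 f21 F11 F22 (ι u) (ι u)
      (moore_SLg h u) (contr_SLg h u (contr_Lg1 hw)) (contr_SLg h u (contr_Lg2 hw)) f g hov
    have := hI.1
    rw [x1, x2, hu1, hu2] at this
    exact this
  · intro c l hcl f g hfg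
    obtain ⟨u, hu1, hu2⟩ := trans_flag (on_y0_l0 (k := k)) hcl
    have hov := H923.PI.ovl12 hph hb.ud (isClosed_tsupport f) (isClosed_tsupport g) hfg
    have hI := H486.Eng.ufam_inc h𝒰 h𝒰 hp hms s21 s12 hL hS hS e2 e1 f12 f21 F21 F12 (ι u) (ι u)
      (moore_SLg h u) (contr_SLg h u (contr_Lg2 hw)) (contr_SLg h u (contr_Lg1 hw)) f g hov
    have := hI.1
    rw [x1, x2, hu1, hu2] at this
    exact this

end leg

end Vale.Agent.P092.SP
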