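import Vale.Agent.P092.SP.Leg1
import Vale.Agent.P092.H486.RelE
import Vale.Agent.P092.H71.P.OrbSp
import Vale.Agent.P092.H725.SN.SizeN

/-!
P092, Team P (helper805), Track C: the four families of the first leg, together with the relations
of second order (helper486) of the two families of points.
-/

set_option linter.all false

open scoped InnerProductSpace ENNReal LinearAlgebra.Projectivization
open Filter Topology ContinuousLinearMap MeasureTheory TopologicalSpace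

namespace Vale.Agent.P092.SP

open Vale.Agent.P092.SR Vale.Agent.P092.H160
open Vale.Agent.P092.RC (Cm Moore PG YY GG y0 KK pic lam₁ lam₂ XX Om Pic)
open Vale.Agent.P092.SP4
open Vale.Agent.P092.H103 (mS₁ ms₁ uc₁)
open Vale.Agent.P092.H933 (LeviGap LocK)
open Vale.Agent.P092.H486.Eng (UFamE ufam sum_one GeoU)
open Vale.Agent.P092.H486.Rel (WCnt)
open Vale.Agent.P092.H859.CL (st BB FF pw Esc Slow Leg)
open Vale.Agent.P092.H76.Pur (NIS Cov)
open Vale.Agent.P092.H899.T (l1 l2 bpt bln)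
open Vale.Agent.P092.H805.Row (mpE)
open Vale.Agent.P092.H805.RowN (Bd Bf msE)

section con

variable {k : Type} [NontriviallyNormedField k] [ProperSpace k]

/-- the walls contract the long root group: the exact formula -/
theorem conj_Lg {b : S4 k} {d : Fin 4 → k} {w : kˣ} (hd : ∀ i, d i ≠ 0)
    (hb : b.1.1 = Matrix.diagonal d) (h0 : d 0 = ((w⁻¹ : kˣ) : k)) (h3 : d 3 = w) (s : k) (N : ℕ) :
    (b ^ N)⁻¹ * Lg s * b ^ N = Lg (((w : k) * w) ^ N * s) := by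
  apply Subtype.ext
  apply Subtype.ext
  ext i j
  rw [H899.P.conj_entry hd hb]
  by_cases hij : i = 0 ∧ j = 3
  · obtain ⟨rfl, rfl⟩ := hij
    have e1 : ∀ s : k, (Lg s).1.1 0 3 = s := fun _ => rfl
    rw [e1, e1, h0, h3, mul_pow, Units.val_inv_eq_inv_val, inv_pow, inv_inv]
    ring
  · have h5 : ∀ s : k, (Lg s).1.1 i j = (1 : Matrix (Fin 4) (Fin 4) k) i j := by
      intro s
      change (!![1, 0, 0, s; 0, 1, 0, 0; 0, 0, 1, 0; 0, 0, 0, 1] : Matrix (Fin 4) (Fin 4) k) i j = _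
      fin_cases i <;> fin_cases j <;> simp at hij ⊢
    rw [h5, h5]
    by_cases h7 : i = j
    · subst h7
      rw [Matrix.one_apply_eq, mul_one, inv_mul_cancel₀ (pow_ne_zero N (hd i))]
    · rw [Matrix.one_apply_ne h7, mul_zero, zero_mul]

theorem Lg_zero : (Lg (0 : k)) = 1 := by
  apply Subtype.ext
  apply Subtype.ext
  change (!![1, 0, 0, 0; 0, 1, 0, 0; 0, 0, 1, 0; 0, 0, 0, 1] : Matrix (Fin 4) (Fin 4) k) = 1
  ext i j
  fin_cases i <;> fin_cases j <;> simp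

theorem uni_Lg {E : Type} [Group E] [TopologicalSpace E] {ι : S4 k →* E} (hc : Continuous ι)
    {b : S4 k} {d : Fin 4 → k} {w : kˣ} (hw : ‖(w : k)‖ < 1) (hd : ∀ i, d i ≠ 0)
    (hb : b.1.1 = Matrix.diagonal d) (h0 : d 0 = ((w⁻¹ : kˣ) : k)) (h3 : d 3 = w) :
    ∀ O ∈ 𝓝 (1 : E), ∀ᶠ s : ℕ in atTop, ∀ x ∈ Metric.closedBall (0 : k) 1,
      (ι b ^ s)⁻¹ * ι (Lg x) * ι b ^ s ∈ O := by
  intro O hO
  have h1 : Continuous fun x : k => ι (Lg x) := hc.comp H71.P.Lg_cont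
  have h2 : ∀ᶠ x : k in 𝓝 0, ι (Lg x) ∈ O := by
    have h3 := h1.tendsto 0
    rw [Lg_zero, map_one] at h3
    exact h3 hO
  obtain ⟨δ, hδ, h4⟩ := Metric.eventually_nhds_iff.1 h2
  have h5 : Tendsto (fun s : ℕ => ‖(w : k) * w‖ ^ s) atTop (𝓝 0) := by
    refine tendsto_pow_atTop_nhds_zero_of_lt_one (norm_nonneg _) ?_
    rw [norm_mul]
    have := norm_nonneg (w : k)
    nlinarith
  filter_upwards [h5.eventually (gt_mem_nhds hδ)] with s hs x hx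
  rw [← map_pow, ← map_inv, ← map_mul, ← map_mul, conj_Lg hd hb h0 h3]
  refine h4 ?_
  rw [dist_zero_right, norm_mul, norm_pow]
  rw [mem_closedBall_zero_iff] at hx
  calc ‖(w : k) * w‖ ^ s * ‖x‖ ≤ ‖(w : k) * w‖ ^ s * 1 := by gcongr
    _ < δ := by rw [mul_one]; exact hs

end con

section leg

variable {k : Type} [NontriviallyNormedField k] [ProperSpace k] [MeasurableSpace k] [BorelSpace k]
  {μ : Measure k} [μ.IsAddHaarMeasure]
  {E : Type} [Group E] [TopologicalSpace E] [IsTopologicalGroup E] [LocallyCompactSpace E]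
  [SecondCountableTopology E] [T2Space E] [MeasurableSpace E] [BorelSpace E]
  {ι : S4 k →* E} {a : E →* PG k 4}
  {Γ : Subgroup E} [DiscreteTopology Γ] [Countable Γ] [MeasurableSpace (E ⧸ Γ)]
  [BorelSpace (E ⧸ Γ)] {ν : Measure (E ⧸ Γ)} [IsProbabilityMeasure ν]
  (hν : ∀ g : E, ν.map (fun x => g • x) = ν)
  {Λ : Type} [Group Λ] [Countable Λ] {α : Γ →* (Ell2 Λ →L[ℂ] Ell2 Λ)} (hα : Frame α)

/-- **One leg with the relations of second order**: the first leg of the concrete picture. -/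
theorem leg₁E (hk : LocK k) (h : Adm ι a) {w : kˣ} (hw : ‖(w : k)‖ < 1) {𝒰 : Ultrafilter ℕ}
    (h𝒰 : (𝒰 : Filter ℕ) ≤ atTop)
    (hΛ : ∀ g : Λ, g ≠ 1 → Set.Infinite {y : Λ | ∃ h, y = h * g * h⁻¹})
    (g1 : LeviGap (ι (B1 w))) (g2 : LeviGap (ι (B2 w))) {q : Γ → S4 k} (hq : ∀ γ, ι (q γ) = γ) :
    ∃ (U11 : YY k 3 → (C(YY k 3, ℂ) →ₗ[ℂ] (KK ν Λ →L[ℂ] KK ν Λ))) (p11 : ℝ)
      (U12 : YY k 3 → (C(LL k, ℂ) →ₗ[ℂ] (KK ν Λ →L[ℂ] KK ν Λ))) (p12 : ℝ)
      (U21 : LL k → (C(YY k 3, ℂ) →ₗ[ℂ] (KK ν Λ →L[ℂ] KK ν Λ))) (p21 : ℝ)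
      (U22 : LL k → (C(LL k, ℂ) →ₗ[ℂ] (KK ν Λ →L[ℂ] KK ν Λ))) (p22 : ℝ),
      LegP μ w 𝒰 ι a (pic hν hα) (lam₁ ν α) (XX ν Λ ∪ Set.range (lam₂ ν α)) (Om ν Λ)
        (mS₁ ν hα) q U11 p11 U12 p12 U21 p21 U22 p22 ∧
      ∀ (I : Type) [Fintype I] (u v : I → C(YY k 3, ℂ)),
        WCnt (fun γ => l1 (q γ)) (fun γ => l2 (q γ)) (fun γ => bpt (q γ)) (fun γ => nm (q γ)) u v →
        (∀ c, ∑ i, U11 c (u i) * U11 c (v i) = 0) ∧ ∀ l, ∑ i, U21 l (u i) * U21 l (v i) = 0 := by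
  haveI := nc_E h
  have hb : PB μ w 𝒰 ι a (pic hν hα) (lam₁ ν α) (XX ν Λ ∪ Set.range (lam₂ ν α)) (Om ν Λ)
      (mS₁ ν hα) q := pb₁ hν hα h hw h𝒰 hΛ g1 g2 hq
  have hph := hb.ph
  have hfin := hb.fin
  have hp := hb.pic
  have est : st (mpE ν hα) = mS₁ ν hα := H805.RowN.st_eq hα
  have hms : SD.Ms (lam₁ ν α) (XX ν Λ ∪ Set.range (lam₂ ν α)) (Om ν Λ) (st (mpE ν hα)) := by
    rw [est]; exact hb.ms
  have huc : SD.UC (pic hν hα) (XX ν Λ ∪ Set.range (lam₂ ν α)) (Om ν Λ) (st (mpE ν hα)) := by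
    rw [est]; exact hb.uc
  have hL : Leg (mpE ν hα) (fun g => pic hν hα g) (fun γ => lam₁ ν α γ)
      (XX ν Λ ∪ Set.range (lam₂ ν α)) :=
    H76.Dicho.leg_of_pic hp (H805.RowN.mcovE hν hα) (H805.RowN.mWE hν hα)
  have s11 := H534.SpK.cn_of (H534.SpK.sysB1 hν hα h hk hw hph hfin)
  have s12 := H534.SpK.cn_of (H534.SpK.sysB1' hν hα h hk hw hph hfin)
  have s21 := H534.SpK.cn_of (H534.SpK.sysB2 hν hα h hk hw hph hfin)
  have s22 := H534.SpK.cn_of (H534.SpK.sysB2' hν hα h hk hw hph hfin)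
  have e1 := H805.RowN.escE' hν hα (coc1 h hw)
  have e2 := H805.RowN.escE' hν hα (coc2 h hw)
  have hS := H805.RowN.slowE hν hα
  have hloc := H805.RowN.locE hν hα
  have f12 : ∀ r, (FF (fun γ => l1 (q γ)) (fun γ => l2 (q γ)) r).Finite :=
    fun r => H899.T.fin_l hfin r
  have f21 : ∀ r, (FF (fun γ => l2 (q γ)) (fun γ => l1 (q γ)) r).Finite :=
    fun r => (H899.T.fin_l hfin r).subset fun γ hγ => ⟨hγ.2, hγ.1⟩
  -- the four families
  letI aP : MulAction E (YY k 3) := actP a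
  letI aL : MulAction E (LL k) := actL h
  letI gP : MulAction Γ (YY k 3) := H899.T.actP hph
  letI gL : MulAction Γ (LL k) := H899.T.actL hph
  have t1 : ∀ z : YY k 3, ∃ g : E, g • (y0 : YY k 3) = z := fun z => by
    obtain ⟨g, hg⟩ := trans_pt (y0 : YY k 3) z
    exact ⟨ι g, (actP_ι h g _).trans hg⟩
  have t2 : ∀ z : LL k, ∃ g : E, g • (l0 : LL k) = z := fun z => by
    obtain ⟨g, hg⟩ := trans_ln (l0 : LL k) z
    exact ⟨ι g, (actL_ι h g _).trans hg⟩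
  obtain ⟨U11, p11, -, -, F11⟩ := ufam (Y := YY k 3) (Z := YY k 3) (z0 := y0) h𝒰 hp (moore_p h y0)
    s11 hL (H899.T.geoU_pt hph hfin) hS hloc e1 (H899.T.domCut_pt q) t1 (hst1 h hw)
  obtain ⟨U12, p12, -, -, F12⟩ := ufam (Y := LL k) (Z := YY k 3) (z0 := y0) h𝒰 hp (moore_p h y0)
    s12 hL (H899.T.geoU_ln hph hfin) hS hloc e1 (H899.T.domCut_ln q) t1 (hst1 h hw)
  obtain ⟨U21, p21, -, -, F21⟩ := ufam (Y := YY k 3) (Z := LL k) (z0 := l0) h𝒰 hp (moore_l h l0)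
    s21 hL (H899.T.geoU_pt hph hfin) hS hloc e2 (H899.T.domCut_pt q) t2 (hst2 h hw)
  obtain ⟨U22, p22, -, -, F22⟩ := ufam (Y := LL k) (Z := LL k) (z0 := l0) h𝒰 hp (moore_l h l0)
    s22 hL (H899.T.geoU_ln hph hfin) hS hloc e2 (H899.T.domCut_ln q) t2 (hst2 h hw)
  have x1 : ∀ (g : S4 k) (x : YY k 3), ι g • x = g • x := actP_ι h
  have x2 : ∀ (g : S4 k) (x : LL k), ι g • x = g • x := actL_ι h
  have m1 : ∀ v v' : YY k 3, Moore (ι '' {g : S4 k | g • v = v ∧ g • v' = v'}) := moore_pp' h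
  have m2' : ∀ v v' : LL k, Moore (ι '' {g : S4 k | g • v = v ∧ g • v' = v'}) := moore_ll' h
  refine ⟨U11, p11, U12, p12, U21, p21, U22, p22,
    { base := hb
      u11 := ?_
      u12 := ?_
      u21 := ?_
      u22 := ?_
      s1 := sum_one h𝒰 hp s11 f12 e1 F11 F12
      s2 := sum_one h𝒰 hp s21 f12 e2 F21 F22
      i11 := ?_
      i12 := ?_ }, ?_⟩
  · rw [← est]
    exact ufam_of (q := q) x1 (fun _ _ => rfl) h.sur hp F11 hb.nis1 m1 fun v v' hne => gen_pp' hne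
  · rw [← est]
    exact ufam_of (q := q) x1 (fun _ _ => rfl) h.sur hp F12 hb.nis2 m1 fun v v' hne => gen_pp' hne
  · rw [← est]
    exact ufam_of (q := q) x2 (fun _ _ => rfl) h.sur hp F21 hb.nis1 m2' fun v v' hne => gen_ll' hne
  · rw [← est]
    exact ufam_of (q := q) x2 (fun _ _ => rfl) h.sur hp F22 hb.nis2 m2' fun v v' hne => gen_ll' hne
  · intro c l hcl f g hfg
    obtain ⟨u, hu1, hu2⟩ := trans_flag (on_y0_l0 (k := k)) hcl
    have hov := H923.PI.ovl12 hph hb.ud (isClosed_tsupport f) (isClosed_tsupport g) hfg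
    have hI := H486.Eng.ufam_inc h𝒰 h𝒰 hp hms s11 s22 hL hS hS e1 e2 f12 f21 F11 F22 (ι u) (ι u)
      (moore_SLg h u) (contr_SLg h u (contr_Lg1 hw)) (contr_SLg h u (contr_Lg2 hw)) f g hov
    have := hI.1
    rw [x1, x2, hu1, hu2] at this
    exact this
  · intro c l hcl f g hfg
    obtain ⟨u, hu1, hu2⟩ := trans_flag (on_y0_l0 (k := k)) hcl
    have hov := H923.PI.ovl12 hph hb.ud (isClosed_tsupport f) (isClosed_tsupport g) hfg
    have hI := H486.Eng.ufam_inc h𝒰 h𝒰 hp hms s21 s12 hL hS hS e2 e1 f12 f21 F21 F12 (ι u) (ι u)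
      (moore_SLg h u) (contr_SLg h u (contr_Lg2 hw)) (contr_SLg h u (contr_Lg1 hw)) f g hov
    have := hI.1
    rw [x1, x2, hu1, hu2] at this
    exact this
  · intro I _ u v hC
    have hz0 : ∀ γ, 0 < nm (q γ) := fun γ => nm_pos4 _
    have hz : ∀ γ, ∃ d : ℝ, 1 ≤ d ∧ ∀ y, nm (q (γ * y)) ≤ d * nm (q y) := fun γ => by
      refine ⟨max 1 (((3 + 1 : ℕ) : ℝ) * nm (q γ)), le_max_left _ _, fun y => ?_⟩
      refine (H725.SN.PH.nm_mul hph γ y).trans ?_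
      exact mul_le_mul_of_nonneg_right (le_max_right _ _) (hz0 y).le
    have hnc : Tendsto (fun x : k => ι (Lg x)) (𝓝 0) (𝓝 1) := by
      have h1 : Continuous fun x : k => ι (Lg x) := h.cι.comp H71.P.Lg_cont
      have h3 := h1.tendsto 0
      rwa [Lg_zero, map_one] at h3
    obtain ⟨ρ1, r1, r1', o1⟩ := hb.orb1'
    obtain ⟨ρ2, r2, r2', o2⟩ := hb.orb2
    have z1 : H790.CTA.SIZEG (ι (B1 w)) (pic hν hα) (Om ν Λ) (st (mpE ν hα))
        fun γ => nm (q γ) := by rw [est]; exact hb.size1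
    have z2 : H790.CTA.SIZEG (ι (B2 w)) (pic hν hα) (Om ν Λ) (st (mpE ν hα))
        fun γ => nm (q γ) := by rw [est]; exact hb.size2
    exact ⟨H486.Rel.rel_same hp hms huc s11 hL e1 h𝒰 F11 t1 r1 r1' hnc o1
        (uni_Lg h.cι hw (H899.P.d1_ne w) (H899.P.B1_diag w) rfl rfl) hz0 hz z1 hC,
      H486.Rel.rel_same hp hms huc s21 hL e2 h𝒰 F21 t2 r2 r2' hnc o2
        (uni_Lg h.cι hw (H899.P.d2_ne w) (H899.P.B2_diag w) rfl rfl) hz0 hz z2 hC⟩

end leg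

end Vale.Agent.P092.SP
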