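import Vale.Agent.P092.SP.OneAll
import Vale.Agent.P092.SP.Fin
import Vale.Agent.P092.H261.C1h
import Vale.Agent.P092.H464.P.C2

/-!
P092, TEAM P (helper805): the first half without hypotheses; `CoreE` of `Sp_4(k)`, `PSp_4(k)`.
-/

set_option linter.all false

open MeasureTheory

namespace Vale.Agent.P092.SP

open Vale.Agent.P092.SP4
open Vale.Agent.P092.SN (CoreE)
open Vale.Agent.P092.H684.Psp (PSp4)

/-- **non-archimedean fields** -/
theorem oneU (k : Type) [NontriviallyNormedField k] [ProperSpace k] [IsUltrametricDist k]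
    (h2 : (2 : k) ≠ 0) : One k := by
  intro _ _ μ _
  exact one_ultra μ h2 (H261.C1.count1 (.ultra inferInstance))
    (H464.PC.count2Stmt (.ultra inferInstance))

/-- **the real field** -/
theorem oneR : One ℝ := by
  intro i1 i2 μ _
  have e : i1 = Real.measurableSpace := i2.measurable_eq
  subst e
  have hk : H933.LocK ℝ := .real (RingEquiv.refl ℝ) fun _ => rfl
  have c1 : H99.P.Count1Stmt ℝ := H261.C1.count1 hk
  have c2 : H99.P.Count2Stmt ℝ := H464.PC.count2Stmt hk
  have h1 : IsFiniteMeasureOnCompacts μ := inferInstance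
  have h2 : μ.IsOpenPosMeasure := inferInstance
  exact @one_real μ h1 h2 c1 c2

theorem coreE_pspR : CoreE (PSp4 ℝ) :=
  coreE_PSp (.real (RingEquiv.refl ℝ) fun _ => rfl) two_ne_zero oneR

theorem coreE_pspU (k : Type) [NontriviallyNormedField k] [ProperSpace k] [IsUltrametricDist k]
    (h2 : (2 : k) ≠ 0) : CoreE (PSp4 k) :=
  coreE_PSp (.ultra inferInstance) h2 (oneU k h2)

/-- **every ICC lattice of `Sp_4(ℝ)` is W*-superrigid** -/
theorem final_real : St.FinalR := finalR_of_one oneR

end Vale.Agent.P092.SP
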